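import Vale.Agent.P219.Aniso

/-!
# P219: the pair integral of an anisotropic calibration
-/

open MeasureTheory

namespace Vale.Agent.P219

variable {n : ℕ} {G : EE n → Form n}

/-- The integral over pairs of boundary points, for an anisotropic calibration. -/
noncomputable def API (hG : IsCH G) (C : ACalib n) (u : EE n → ℝ) (R : ℝ) : ℝ :=
  ∫ x, ∫ y, conorm G x (fderiv ℝ u x) * conorm G y (fderiv ℝ u y) *
      C.Q (gdist hG x y / R) (ucos hG u y x) (ucos hG u x y) ∂rVol G ∂rVol G

end Vale.Agent.P219
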