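import Vale.Agent.P219.Lines.ChordBound
import Vale.Agent.P219.Lines.APair

/-!
# P219 module Lines: the Santalo step for anisotropic calibrations
-/

open scoped ENNReal
open MeasureTheory Set Filter Topology

namespace Vale.Agent.P219

variable {n : ℕ} {G : EE n → Form n}

lemma Aniso.continuous_f (A : Aniso) : Continuous fun p : ℝ × ℝ => A.f p.1 p.2 :=
  continuous_iff_continuousAt.2 fun p => (A.hasDeriv p.1 p.2).continuousAt

lemma Aniso.continuous_Kf (A : Aniso) (m : ℕ) :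
    Continuous fun p : ℝ × ℝ × ℝ => A.K m p.1 p.2.1 p.2.2 := by
  have h1 : Continuous fun p : ℝ × ℝ × ℝ => A.f p.1 p.2.2 :=
    A.continuous_f.comp (continuous_fst.prodMk (continuous_snd.comp continuous_snd))
  have h2 : Continuous fun p : ℝ × ℝ × ℝ => A.ft p.1 p.2.2 :=
    A.cont_ft.comp (continuous_fst.prodMk (continuous_snd.comp continuous_snd))
  have h3 : Continuous fun p : ℝ × ℝ × ℝ => A.fu p.1 p.2.2 :=
    A.cont_fu.comp (continuous_fst.prodMk (continuous_snd.comp continuous_snd))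
  unfold Aniso.K
  fun_prop

lemma Aniso.exists_Kf_bound (A : Aniso) (m : ℕ) :
    ∃ B, ∀ t c u, 0 ≤ t → c ∈ Icc (-1 : ℝ) 1 → u ∈ Icc (-1 : ℝ) 1 → |A.K m t c u| ≤ B := by
  obtain ⟨B, hB⟩ := A.bdd
  refine ⟨(4 + 2 * ((m : ℝ) + 2)) * |B|, fun t c u ht hc hu => ?_⟩
  obtain ⟨h1, h2, h3, h4⟩ := hB t u ht hu
  have hB0 := le_abs_self B
  have hc2 : c ^ 2 ≤ 1 := by nlinarith [hc.1, hc.2]
  have hu2 : u ^ 2 ≤ 1 := by nlinarith [hu.1, hu.2]
  have hs : Real.sqrt ((1 - u ^ 2) * (1 - c ^ 2)) ≤ 1 := by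
    rw [Real.sqrt_le_one]; nlinarith
  have hm : (0 : ℝ) ≤ (m : ℝ) := Nat.cast_nonneg m
  have e1 : |(A.f t u + t * A.ft t u) * (1 - c ^ 2)| ≤ 2 * |B| * 1 := by
    rw [abs_mul]
    exact mul_le_mul ((abs_add_le _ _).trans (by linarith))
      (abs_le.2 ⟨by nlinarith, by nlinarith⟩) (abs_nonneg _) (by positivity)
  have e2 : |((m : ℝ) - 2 + c ^ 2) * A.f t u| ≤ ((m : ℝ) + 2) * |B| := by
    rw [abs_mul]
    exact mul_le_mul (abs_le.2 ⟨by nlinarith, by nlinarith⟩) (h1.trans hB0) (abs_nonneg _)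
      (by positivity)
  have e3 : |((m : ℝ) - 1) * (t * A.f t u) * c| ≤ ((m : ℝ) + 2) * |B| * 1 := by
    rw [abs_mul, abs_mul ((m : ℝ) - 1)]
    exact mul_le_mul (mul_le_mul (abs_le.2 ⟨by linarith, by linarith⟩) (h2.trans hB0)
      (abs_nonneg _) (by positivity)) (abs_le.2 hc) (abs_nonneg _) (by positivity)
  have e4 : |(|A.fu t u| * |c| * Real.sqrt ((1 - u ^ 2) * (1 - c ^ 2)))| ≤ |B| * 1 * 1 := by
    rw [abs_of_nonneg (by positivity)]
    exact mul_le_mul (mul_le_mul (h4.trans hB0) (abs_le.2 hc) (abs_nonneg _) (abs_nonneg _)) hs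
      (Real.sqrt_nonneg _) (by positivity)
  unfold Aniso.K
  refine (abs_sub _ _).trans ?_
  refine (add_le_add ((abs_sub _ _).trans (add_le_add ((abs_add_le _ _).trans (add_le_add e1 e2))
    e3)) e4).trans ?_
  nlinarith [abs_nonneg B, mul_nonneg hm (abs_nonneg B)]

/-- The line kernels of an anisotropic calibration. -/
noncomputable def ACalib.lker (C : ACalib n) : LKer n where
  Q := C.Q
  E := fun _ _ => 0
  φ := C.φ
  continuous_Q := by
    have h := C.bdry.continuous_Kf n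
    have h' : Continuous fun p : ℝ × ℝ × ℝ => C.bdry.K n p.1 p.2.2 p.2.1 :=
      h.comp (continuous_fst.prodMk ((continuous_snd.comp continuous_snd).prodMk
        (continuous_fst.comp continuous_snd)))
    exact continuous_const.add ((h.add h').div_const 2)
  continuous_E := continuous_const
  cont_φ := C.cont_φ
  Q_nonneg := fun ht ha hb => C.nonneg _ _ _ ht ha hb
  E_nonneg := fun _ _ => le_rfl
  φ_nonneg := C.φ_nonneg
  exists_Q_bound := by
    obtain ⟨B, hB⟩ := C.bdry.exists_Kf_bound n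
    refine ⟨|C.α| + B, fun t a b ht ha hb => ?_⟩
    have h1 := abs_le.1 (hB t a b ht ha hb)
    have h2 := abs_le.1 (hB t b a ht hb ha)
    refine (abs_add_le _ _).trans (add_le_add le_rfl (abs_le.2 ⟨?_, ?_⟩)) <;> linarith
  exists_E_bound := ⟨0, fun _ _ _ _ => abs_zero.le⟩
  cert := fun t a b ht ha hb => by
    simpa [ACalib.Q] using C.cert t a b ht ha hb

variable [NeZero n]

theorem chord_bound_aniso (hn : 2 ≤ n) (hG : IsCH G) (C : ACalib n) {o : EE n} {R₀ s R : ℝ}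
    {u : EE n → ℝ} (hu : Adm hG o R₀ u) (hs : 0 < s) (htr : Transversal hG u s)
    {κ Rs : ℕ → ℝ} (hκ : Tendsto κ atTop atTop) (hκ0 : ∀ k, 0 < κ k) (hR : 0 < R)
    (hRs : Tendsto Rs atTop (𝓝 R)) {M : ℝ}
    (hM : ∀ᶠ k in atTop, API hG C (band (κ k) s u) (Rs k) / (n * Rs k ^ (n - 2))
      + 2 * (ballMoment n (fun c => c * C.φ c) / omega n) * omega n * Rs k
        * TV G (band (κ k) s u) ≤ M) :
    omega n * (rVol G {x | s < u x}).toReal ≤ M := by
  refine chord_bound_lker hn hG C.lker hu hs htr hκ hκ0 hR hRs ?_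
  filter_upwards [hM] with k hk
  have h0 : LKer.IPI hG C.lker (band (κ k) s u) (Rs k) = 0 := by
    simp [LKer.IPI, ACalib.lker]
  rw [h0, mul_zero, zero_div, add_zero]
  exact hk

end Vale.Agent.P219
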