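import Vale.Agent.P219.Geo.Linear

/-!
# P219 module Moments: integrals over the unit ball of a tangent space

A linear isometry between `G x` and the Euclidean inner product, followed by a reflection taking
the dual vector of `p` to the first axis.
-/

open MeasureTheory Set

namespace Vale.Agent.P219

variable {n : ℕ} [NeZero n] {G : EE n → Form n}

omit [NeZero n] in
theorem omega_pos : 0 < omega n :=
  ENNReal.toReal_pos (Metric.measure_closedBall_pos _ _ one_pos).ne'
    measure_closedBall_lt_top.ne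

omit [NeZero n] in
/-- Change of variables between the unit ball of `G x` and the Euclidean one. -/
theorem integral_gball_eq {x : EE n} (L : EE n ≃L[ℝ] EE n)
    (hL : ∀ v w, G x v w = inner ℝ (L v) (L w))
    (hd : dens G x = |(L : EE n →L[ℝ] EE n).det|) (f : EE n → ℝ) :
    (∫ v in {v | gnorm G x v ≤ 1}, f (L v)) * dens G x
      = ∫ w in Metric.closedBall (0 : EE n) 1, f w := by
  have hg : ∀ v, gnorm G x v = ‖L v‖ := fun v => by
    rw [gnorm, hL, real_inner_self_eq_norm_sq, Real.sqrt_sq (norm_nonneg _)]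
  have hset : {v | gnorm G x v ≤ 1} = L ⁻¹' Metric.closedBall (0 : EE n) 1 := by
    ext v; simp [hg]
  have h := integral_image_eq_integral_abs_det_fderiv_smul (μ := (volume : Measure (EE n)))
    (s := L ⁻¹' Metric.closedBall (0 : EE n) 1) (f := L)
    (f' := fun _ => (L : EE n →L[ℝ] EE n))
    (measurableSet_closedBall.preimage L.continuous.measurable)
    (fun v _ => (L : EE n →L[ℝ] EE n).hasFDerivWithinAt) L.injective.injOn f
  rw [Set.image_preimage_eq _ L.surjective] at h
  simp only [smul_eq_mul, integral_const_mul] at h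
  rw [h, hset, hd, mul_comm]

omit [NeZero n] in
theorem integral_ball_one (hG : IsCH G) (x : EE n) :
    (∫ _v in {v | gnorm G x v ≤ 1}, (1 : ℝ)) * dens G x = omega n := by
  obtain ⟨L, hL, hd⟩ := exists_det_sq hG x
  rw [integral_gball_eq L hL hd fun _ => (1 : ℝ), omega, setIntegral_const, smul_eq_mul, mul_one,
    measureReal_def]

theorem integral_ball_cos (hG : IsCH G) (x : EE n) {p : EE n →L[ℝ] ℝ} (hp : p ≠ 0)
    {ψ : ℝ → ℝ} (hψ : Continuous ψ) :
    (∫ v in {v | gnorm G x v ≤ 1}, ψ (max 0 (p v / (gnorm G x v * conorm G x p)))) * dens G x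
      = ballMoment n ψ := by
  have _ := hψ
  obtain ⟨L, hL, hd⟩ := exists_det_sq hG x
  have hg : ∀ v, gnorm G x v = ‖L v‖ := fun v => by
    rw [gnorm, hL, real_inner_self_eq_norm_sq, Real.sqrt_sq (norm_nonneg _)]
  set a : EE n := (InnerProductSpace.toDual ℝ (EE n)).symm (p.comp (L.symm : EE n →L[ℝ] EE n))
  have hpa : ∀ v, p v = inner ℝ a (L v) := fun v => by
    simp [a, InnerProductSpace.toDual_symm_apply]
  have ha : a ≠ 0 := fun h => hp <| ContinuousLinearMap.ext fun v => by simp [hpa v, h]
  have hinv : (G x).inverse p = L.symm a := by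
    have e : G x (L.symm a) = p := ContinuousLinearMap.ext fun w => by
      rw [hL, L.apply_symm_apply, hpa]
    conv_lhs => rw [← e]
    exact (hG.invertible x).inverse_apply_self _
  have hco : conorm G x p = ‖a‖ := by
    rw [conorm, hinv, hpa, L.apply_symm_apply, real_inner_self_eq_norm_sq,
      Real.sqrt_sq (norm_nonneg _)]
  set e₀ : EE n := EuclideanSpace.single 0 (1 : ℝ)
  set R : EE n ≃ₗᵢ[ℝ] EE n := (ℝ ∙ (‖a‖⁻¹ • a - e₀))ᗮ.reflection
  have hR : R (‖a‖⁻¹ • a) = e₀ :=
    Submodule.reflection_sub (by simp [e₀, norm_smul, ha])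
  have key : ∀ v, p v / (gnorm G x v * conorm G x p) = R (L v) 0 / ‖R (L v)‖ := by
    intro v
    have h0 : R (L v) 0 = inner ℝ (R (‖a‖⁻¹ • a)) (R (L v)) := by
      rw [hR]; simp [e₀, EuclideanSpace.inner_single_left]
    rw [h0, R.inner_map_map, inner_smul_left, R.norm_map, hg, hco, hpa]
    simp [div_eq_mul_inv, mul_comm, mul_left_comm]
  simp only [key]
  rw [integral_gball_eq L hL hd fun w => ψ (max 0 (R w 0 / ‖R w‖)), ballMoment]
  have h := R.measurePreserving.setIntegral_preimage_emb
    R.toHomeomorph.measurableEmbedding (fun w => ψ (max 0 (w 0 / ‖w‖)))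
    (Metric.closedBall (0 : EE n) 1)
  rw [R.preimage_closedBall, map_zero] at h
  exact h

end Vale.Agent.P219
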