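import Vale.Agent.P219.Lines.Transport

/-!
# P219 module Lines: calculus of the band along the line densities
-/

open scoped ContDiff
open MeasureTheory Set Filter Topology

namespace Vale.Agent.P219.Lines

variable {n : ℕ} {G : EE n → Form n}

/-- The derivative of the step. -/
noncomputable def stepD (t : ℝ) : ℝ := if t ≤ 0 then 0 else if 1 ≤ t then 0 else 6 * t - 6 * t ^ 2

lemma stepFun_eq (t : ℝ) :
    stepFun t = 3 * (max 0 (min t 1)) ^ 2 - 2 * (max 0 (min t 1)) ^ 3 := by
  unfold stepFun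
  split_ifs with h1 h2
  · rw [max_eq_left ((min_le_left t 1).trans h1)]; ring
  · rw [min_eq_right h2, max_eq_right zero_le_one]; ring
  · rw [min_eq_left (le_of_not_ge h2), max_eq_right (le_of_not_ge h1)]

lemma stepD_eq (t : ℝ) : stepD t = 6 * max 0 (min t 1) - 6 * (max 0 (min t 1)) ^ 2 := by
  unfold stepD
  split_ifs with h1 h2
  · rw [max_eq_left ((min_le_left t 1).trans h1)]; ring
  · rw [min_eq_right h2, max_eq_right zero_le_one]; ring
  · rw [min_eq_left (le_of_not_ge h2), max_eq_right (le_of_not_ge h1)]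

lemma continuous_stepD : Continuous stepD := by
  rw [funext stepD_eq]; fun_prop

lemma continuous_stepFun : Continuous stepFun := by
  rw [funext stepFun_eq]; fun_prop

lemma stepD_nonneg (t : ℝ) : 0 ≤ stepD t := by
  rw [stepD_eq]
  have h0 : 0 ≤ max 0 (min t 1) := le_max_left _ _
  have h1 : max 0 (min t 1) ≤ 1 := max_le zero_le_one (min_le_right _ _)
  nlinarith

lemma hasDerivAt_stepFun (t : ℝ) : HasDerivAt stepFun (stepD t) t := by
  have hpoly : ∀ y : ℝ, HasDerivAt (fun y => 3 * y ^ 2 - 2 * y ^ 3) (6 * y - 6 * y ^ 2) y := by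
    intro y
    exact (((hasDerivAt_pow 2 y).const_mul (3 : ℝ)).fun_sub
      ((hasDerivAt_pow 3 y).const_mul (2 : ℝ))).congr_deriv (by push_cast; ring)
  set f₁ : ℝ → ℝ := fun y => 3 * (max 0 y) ^ 2 - 2 * (max 0 y) ^ 3
  have h₁ : ∀ y, HasDerivAt f₁ (6 * max 0 y - 6 * (max 0 y) ^ 2) y :=
    hasDerivAt_of_hasDerivAt_of_ne' (x := 0) (fun y hy => by
      rcases lt_or_gt_of_ne hy with h | h
      · rw [max_eq_left h.le]
        refine (hasDerivAt_const y (0 : ℝ)).congr_of_eventuallyEq ?_ |>.congr_deriv (by ring)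
        filter_upwards [Iio_mem_nhds h] with z hz
        simp [f₁, max_eq_left (mem_Iio.1 hz).le]
      · rw [max_eq_right h.le]
        refine (hpoly y).congr_of_eventuallyEq ?_
        filter_upwards [Ioi_mem_nhds h] with z hz
        simp [f₁, max_eq_right (mem_Ioi.1 hz).le]) (by fun_prop) (by fun_prop)
  refine hasDerivAt_of_hasDerivAt_of_ne' (x := 1) (fun y hy => ?_)
    continuous_stepFun.continuousAt continuous_stepD.continuousAt t
  rcases lt_or_gt_of_ne hy with h | h
  · rw [stepD_eq, min_eq_left h.le]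
    refine (h₁ y).congr_of_eventuallyEq ?_
    filter_upwards [Iio_mem_nhds h] with z hz
    rw [stepFun_eq, min_eq_left (mem_Iio.1 hz).le]
  · rw [stepD_eq, min_eq_right h.le, max_eq_right zero_le_one]
    refine (hasDerivAt_const y (1 : ℝ)).congr_of_eventuallyEq ?_ |>.congr_deriv (by ring)
    filter_upwards [Ioi_mem_nhds h] with z hz
    rw [stepFun_eq, min_eq_right (mem_Ioi.1 hz).le, max_eq_right zero_le_one]
    norm_num

lemma band_one {κ s : ℝ} {u : EE n → ℝ} {x : EE n} (h : 2 ≤ κ * (u x - s)) :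
    band κ s u x = 1 := by
  rw [band, stepFun_eq, min_eq_right (by linarith), max_eq_right zero_le_one]
  norm_num

lemma band_nonneg (κ s : ℝ) (u : EE n → ℝ) (x : EE n) : 0 ≤ band κ s u x := by
  rw [band, stepFun_eq]
  have h0 : 0 ≤ max 0 (min (κ * (u x - s) - 1) 1) := le_max_left _ _
  have h1 : max 0 (min (κ * (u x - s) - 1) 1) ≤ 1 := max_le zero_le_one (min_le_right _ _)
  nlinarith [mul_nonneg (sq_nonneg (max 0 (min (κ * (u x - s) - 1) 1)))
    (sub_nonneg.2 h1)]

lemma band_eq_zero {κ s : ℝ} (hκ : 0 ≤ κ) {u : EE n → ℝ} {x : EE n} (h : u x ≤ s) :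
    band κ s u x = 0 := by
  rw [band, stepFun, if_pos]
  nlinarith

/-- The weight of the band at `x`. -/
noncomputable def bw (κ s : ℝ) (u : EE n → ℝ) (x : EE n) : ℝ :=
  κ * stepD (κ * (u x - s) - 1)

lemma bw_nonneg {κ s : ℝ} (hκ : 0 ≤ κ) (u : EE n → ℝ) (x : EE n) : 0 ≤ bw κ s u x :=
  mul_nonneg hκ (stepD_nonneg _)

lemma hasFDerivAt_band {κ s : ℝ} {u : EE n → ℝ} (hu : ContDiff ℝ 1 u) (x : EE n) :
    HasFDerivAt (band κ s u) (bw κ s u x • fderiv ℝ u x) x := by
  have h := (((hu.differentiable one_ne_zero x).hasFDerivAt.sub_const s).const_mul κ).sub_const 1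
  have h' := (hasDerivAt_stepFun _).comp_hasFDerivAt x h
  refine h'.congr_fderiv ?_
  rw [bw, smul_smul, mul_comm (stepD _)]

lemma contDiff_band {κ s : ℝ} {u : EE n → ℝ} (hu : ContDiff ℝ 1 u) :
    ContDiff ℝ 1 (band κ s u) := by
  rw [contDiff_one_iff_fderiv]
  refine ⟨fun x => (hasFDerivAt_band hu x).differentiableAt, ?_⟩
  rw [show fderiv ℝ (band κ s u) = _ from funext fun x => (hasFDerivAt_band hu x).fderiv]
  have hc := hu.continuous
  have hd := hu.continuous_fderiv one_ne_zero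
  unfold bw
  exact ((continuous_const.mul (continuous_stepD.comp (by fun_prop))).smul hd)

lemma hasCompactSupport_band {κ s : ℝ} (hκ : 0 ≤ κ) (hs : 0 ≤ s) {u : EE n → ℝ}
    (hu : HasCompactSupport u) : HasCompactSupport (band κ s u) :=
  hu.mono fun x hx => by
    contrapose! hx
    simp only [Function.notMem_support] at hx ⊢
    exact band_eq_zero hκ (hx ▸ hs)

lemma conorm_band (hG : IsCH G) {κ s : ℝ} (hκ : 0 ≤ κ) {u : EE n → ℝ} (hu : ContDiff ℝ 1 u)
    (x : EE n) : conorm G x (fderiv ℝ (band κ s u) x) = bw κ s u x * conorm G x (fderiv ℝ u x) := by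
  rw [(hasFDerivAt_band hu x).fderiv, conorm_smul hG, abs_of_nonneg (bw_nonneg hκ u x)]
  

lemma lineCos_band (hG : IsCH G) {κ s : ℝ} (hκ : 0 ≤ κ) {u : EE n → ℝ} (hu : ContDiff ℝ 1 u)
    {z : EE n × EE n} (h : bw κ s u z.1 ≠ 0) : lineCos G (band κ s u) z = lineCos G u z := by
  rw [lineCos, (hasFDerivAt_band hu z.1).fderiv, conorm_smul hG,
    abs_of_nonneg (bw_nonneg hκ u z.1)]
  simp only [FunLike.coe_smul, Pi.smul_apply, smul_eq_mul, lineCos]
  field_simp

end Vale.Agent.P219.Lines
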