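import Vale.Agent.P219.Lines.ChordLimit

/-!
# P219 module Lines: the lower limit of the end densities, and the certificate
-/

open scoped ENNReal
open MeasureTheory Set Filter Topology

namespace Vale.Agent.P219.Lines

variable {n : ℕ} {G : EE n → Form n}

/-- the end density as a function of the time, the radius and the cosine -/
noncomputable def endL (C : LKer n) (r a' b' b : ℝ) (p : ℝ × ℝ × ℝ) : ℝ :=
  (p.2.1 * (p.2.2 * C.φ p.2.2)
      + (p.2.1 ^ (n - 1))⁻¹ * ∫ l in a'..b', innK C r (p.1, p.2.1⁻¹, p.2.2) l)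
    / (r * p.2.2 * (b - p.1))

lemma continuousAt_endL (C : LKer n) {r a' b' b : ℝ} {p : ℝ × ℝ × ℝ} (hR : p.2.1 ≠ 0)
    (hp : r * p.2.2 * (b - p.1) ≠ 0) : ContinuousAt (endL C r a' b' b) p := by
  have h1 : Continuous fun q : ℝ × ℝ × ℝ => ∫ l in a'..b', innK C r q l :=
    intervalIntegral.continuous_parametric_intervalIntegral_of_continuous' (continuous_innK C r) a' b'
  have h2a : ContinuousAt (fun p : ℝ × ℝ × ℝ => p.2.1⁻¹) p := ContinuousAt.inv₀ (by fun_prop) hR
  have h2 : ContinuousAt (fun p : ℝ × ℝ × ℝ => (p.1, p.2.1⁻¹, p.2.2)) p :=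
    ContinuousAt.prodMk (by fun_prop) (h2a.prodMk (by fun_prop))
  have h3 : ContinuousAt (fun p : ℝ × ℝ × ℝ => ∫ l in a'..b', innK C r (p.1, p.2.1⁻¹, p.2.2) l) p :=
    ContinuousAt.comp (g := fun q : ℝ × ℝ × ℝ => ∫ l in a'..b', innK C r q l) h1.continuousAt h2
  have h4 : ContinuousAt (fun p : ℝ × ℝ × ℝ => p.2.1 * (p.2.2 * C.φ p.2.2)) p := by
    have := C.cont_φ
    fun_prop
  have h5 : ContinuousAt (fun p : ℝ × ℝ × ℝ => (p.2.1 ^ (n - 1))⁻¹) p :=
    ContinuousAt.inv₀ (by fun_prop) (pow_ne_zero _ hR)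
  unfold endL
  exact (h4.fun_add (h5.fun_mul h3)).div (by fun_prop) hp

lemma end_lower (hG : IsCH G) (C : LKer n) {u : EE n → ℝ} (hu : ContDiff ℝ 1 u) {s R : ℝ}
    {κ Rs : ℕ → ℝ} (hκ : Tendsto κ atTop atTop) (hR : 0 < R) (hRs : Tendsto Rs atTop (𝓝 R))
    {z : EE n × EE n} (hr : 0 < gnorm G z.1 z.2) {a b : ℝ} (ha : a < 0) (hb : 0 < b)
    (has : u (geoPt hG z a) = s) (hbs : u (geoPt hG z b) = s)
    (hin : ∀ t ∈ Ioo a b, s < u (geoPt hG z t)) (had : 0 < dw hG u z a)
    {ε : ℝ} (hε : 0 < ε) :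
    ∀ᶠ k in atTop, ENNReal.ofReal (endL C (gnorm G z.1 z.2) a b b (a, R, cw hG u z a) - ε)
      ≤ spreadG hG {x | s < u x} (endF hG C (band (κ k) s u) {x | s < u x} (Rs k)) z := by
  set r := gnorm G z.1 z.2
  obtain ⟨hca, hna⟩ := cw_mem_of_pos hG had
  have hab : 0 < b - a := by linarith
  -- shrink the interior interval
  set g : ℝ → ℝ := fun l => innK C r (a, R⁻¹, cw hG u z a) l
  have hgc : Continuous g := (continuous_innK C r).comp (continuous_const.prodMk continuous_id)
  have hP : Continuous fun x => ∫ l in a..x, g l :=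
    intervalIntegral.continuous_primitive (fun x y => hgc.intervalIntegrable x y) a
  have hlim : Tendsto (fun d => endL C r (a + d) (b - d) b (a, R, cw hG u z a)) (𝓝[>] 0)
      (𝓝 (endL C r a b b (a, R, cw hG u z a))) := by
    have h : ∀ d, ∫ l in (a + d)..(b - d), g l =
        (∫ l in a..(b - d), g l) - ∫ l in a..(a + d), g l := fun d =>
      (intervalIntegral.integral_interval_sub_left (hgc.intervalIntegrable _ _)
        (hgc.intervalIntegrable _ _)).symm
    have hc : Continuous fun d => ∫ l in (a + d)..(b - d), g l := by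
      simp_rw [h]
      exact (hP.comp (continuous_const.sub continuous_id)).sub
        (hP.comp (continuous_const.add continuous_id))
    have hc2 : Continuous fun d => endL C r (a + d) (b - d) b (a, R, cw hG u z a) :=
      (continuous_const.add (continuous_const.mul hc)).div_const _
    simpa using (hc2.tendsto 0).mono_left nhdsWithin_le_nhds
  obtain ⟨d, hd1, hd2, hd3⟩ := (((hlim.eventually_const_le (sub_lt_self _ (half_pos hε))).and
    ((eventually_nhdsWithin_of_eventually_nhds (eventually_lt_nhds (half_pos hab))).and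
      (eventually_mem_nhdsWithin (a := (0 : ℝ)) (s := Ioi 0))))).exists
  have hd3 : 0 < d := hd3
  set L := endL C r (a + d) (b - d) b
  have hL : ContinuousAt L (a, R, cw hG u z a) :=
    continuousAt_endL C hR.ne' (mul_ne_zero (mul_pos hr hca.1).ne' hab.ne')
  have hT : Tendsto (fun x : ℝ × ℕ => (x.1, Rs x.2, cw hG u z x.1)) (𝓝 a ×ˢ atTop)
      (𝓝 (a, R, cw hG u z a)) :=
    tendsto_fst.prodMk_nhds ((hRs.comp tendsto_snd).prodMk_nhds
      ((continuousAt_cw hG hu hr.ne' hna.ne').tendsto.comp tendsto_fst))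
  obtain ⟨pa, hpa, pk, hpk, hp⟩ := eventually_prod_iff.1
    ((hL.tendsto.comp hT).eventually_const_le (sub_lt_self _ (half_pos hε)))
  have h1 : ∀ᶠ t in 𝓝 a, pa t ∧ t < 0 ∧ t < a + d ∧ 0 < dw hG u z t :=
    hpa.and ((eventually_lt_nhds ha).and ((eventually_lt_nhds (by linarith)).and
      ((continuous_dw hG hu z).continuousAt.eventually_const_lt had)))
  obtain ⟨δa, hδa, hwa⟩ := Metric.eventually_nhds_iff.1 h1
  obtain ⟨δ, hδ, hdd⟩ : ∃ δ : ℝ, 0 < δ ∧ δ < δa := ⟨δa / 2, by positivity, by linarith⟩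
  have wa : ∀ t ∈ Icc a (a + δ), pa t ∧ t < 0 ∧ t < a + d ∧ 0 < dw hG u z t := fun t ht =>
    hwa (by rw [Real.dist_eq, abs_lt]; constructor <;> linarith [ht.1, ht.2])
  have sa : s < u (geoPt hG z (a + δ)) :=
    hin _ ⟨by linarith, by linarith [(wa (a + δ) ⟨by linarith, le_rfl⟩).2.1]⟩
  filter_upwards [hpk, hκ.eventually_ge_atTop 0,
    hκ.eventually_ge_atTop (2 / (u (geoPt hG z (a + δ)) - s)),
    eventually_band_one hG hu.continuous hκ (a' := a + d) (b' := b - d) (z := z) (s := s)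
      (fun t ht => hin t ⟨by linarith [ht.1], by linarith [ht.2]⟩),
    hRs.eventually_const_lt hR] with k hk hκ0 hκa hone hRk
  set c := endL C r a b b (a, R, cw hG u z a) - ε
  set ma := fun t => κ k * stepD (κ k * (u (geoPt hG z t) - s) - 1) * dw hG u z t
  have Ma : ∫⁻ t in Ioo a (a + δ), ENNReal.ofReal (ma t) = 1 :=
    mass_one (hasDerivAt_comp_geoPt hG hu z) (continuous_dw hG hu z) hκ0 (by linarith)
      (fun t ht => (wa t ht).2.2.2.le) has.le ((div_le_iff₀ (sub_pos.2 sa)).1 hκa)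
  rw [spreadG]
  calc ENNReal.ofReal c = ∫⁻ x in Ioo a (a + δ), ENNReal.ofReal (ma x) * ENNReal.ofReal c := by
        rw [lintegral_mul_const' _ _ ENNReal.ofReal_ne_top, Ma, one_mul]
    _ ≤ ∫⁻ x in Ioo a (a + δ), (fwdSet hG {x | s < u x} (flowG hG x z)).indicator
          (fun _ => endF hG C (band (κ k) s u) {x | s < u x} (Rs k) (flowG hG x z)
            / volume (fwdSet hG {x | s < u x} (flowG hG x z))) (-x) := by
        refine setLIntegral_mono' measurableSet_Ioo fun x hx => ?_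
        obtain ⟨qx, x0, xd, dx⟩ := wa x (Ioo_subset_Icc_self hx)
        have hin' : ∀ t ∈ Ico x b, s < u (geoPt hG z t) := fun t ht =>
          hin t ⟨hx.1.trans_le ht.1, ht.2⟩
        rw [fwdSet_eq hG (by linarith) hin' hbs.le, Real.volume_Ioo, sub_zero,
          indicator_of_mem (show -x ∈ Ioo (0 : ℝ) (b - x) from ⟨by linarith, by linarith⟩)]
        rw [ENNReal.le_div_iff_mul_le (Or.inl (by simp; linarith))
          (Or.inl ENNReal.ofReal_ne_top)]
        have hc : c ≤ L (x, Rs k, cw hG u z x) := by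
          have := hp qx hk
          simp only [Function.comp_apply] at this
          linarith
        by_cases hz : bw (κ k) s u (geoPt hG z x) = 0
        · have : ma x = 0 := by show bw (κ k) s u (geoPt hG z x) * _ = 0; rw [hz, zero_mul]
          simp [this]
        obtain ⟨⟨cx, -⟩, -⟩ := cw_mem_of_pos hG dx
        have hx0 : 0 ≤ ma x := mul_nonneg (bw_nonneg hκ0 u _) dx.le
        have hh : 0 ≤ bw (κ k) s u (geoPt hG z x)
            * conorm G (geoPt hG z x) (fderiv ℝ u (geoPt hG z x)) :=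
          mul_nonneg (bw_nonneg hκ0 u _) (conorm_nonneg _ _)
        have hJ := intF_ge hG C hu hκ0 hRk xd (by linarith) (by linarith : b - d < b) hin'
          hbs.le hone hz
        refine le_trans ?_ (add_le_add le_rfl (mul_le_mul_right hJ _))
        have hbd : bdryF G (fun c => c * C.φ c) (band (κ k) s u) (flowG hG x z)
            = ENNReal.ofReal (bw (κ k) s u (geoPt hG z x)
              * conorm G (geoPt hG z x) (fderiv ℝ u (geoPt hG z x))
              * (cw hG u z x * C.φ (cw hG u z x))) := by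
          rw [bdryF, show lineCos G (band (κ k) s u) (flowG hG x z) = cw hG u z x from
            lineCos_band hG hκ0 hu hz, max_eq_right cx.le, conorm_band hG hκ0 hu]
          rfl
        rw [hbd, ← ENNReal.ofReal_mul hRk.le, ← ENNReal.ofReal_mul hx0,
          ← ENNReal.ofReal_mul' (by linarith : (0 : ℝ) ≤ b - x),
          ← ENNReal.ofReal_mul (inv_nonneg.2 (pow_nonneg hRk.le _))]
        refine (ENNReal.ofReal_le_ofReal ?_).trans ENNReal.ofReal_add_le
        refine (mul_le_mul_of_nonneg_right (mul_le_mul_of_nonneg_left hc hx0)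
          (by linarith : (0 : ℝ) ≤ b - x)).trans_eq ?_
        have hxb : b - x ≠ 0 := by linarith
        simp only [ma, L, endL, dw_eq hG u z, bw]
        field_simp
        ring
    _ ≤ _ := lintegral_mono_set fun x hx => (wa x (Ioo_subset_Icc_self hx)).2.1

lemma integral_innK (C : LKer n) (hn : 0 < n) (r R p a b : ℝ) (hR : R ≠ 0) :
    ∫ l in a..b, innK C r (a, R⁻¹, p) l
      = R ^ n * ∫ ρ in (0 : ℝ)..(r * (b - a) / R), ρ ^ (n - 1) * C.E ρ p := by
  have h := intervalIntegral.mul_integral_comp_mul_left (a := 0) (b := b - a) (c := r / R)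
    (f := fun ρ => ρ ^ (n - 1) * C.E ρ p)
  rw [mul_zero] at h
  rw [show r * (b - a) / R = r / R * (b - a) by ring, ← h, ← sub_self a,
    ← intervalIntegral.integral_comp_sub_right _ a, ← mul_assoc,
    ← intervalIntegral.integral_const_mul]
  refine intervalIntegral.integral_congr fun l _ => ?_
  show r * (r * (l - a)) ^ (n - 1) * C.E (r * (l - a) * R⁻¹) p
    = R ^ n * (r / R) * ((r / R * (l - a)) ^ (n - 1) * C.E (r / R * (l - a)) p)
  have hn' : R ^ n = R ^ (n - 1) * R := by rw [← pow_succ]; congr 1; omega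
  rw [show r / R * (l - a) = r * (l - a) * R⁻¹ by ring, hn', mul_pow (r * (l - a)), inv_pow]
  field_simp

/-- the certificate, divided by the chord -/
lemma cert_one (C : LKer n) (hn : 2 ≤ n) {r R a b ca cb : ℝ} (hr : 0 < r) (hR : 0 < R)
    (hab : a < b) (hca : ca ∈ Ioc (0 : ℝ) 1) (hcb : cb ∈ Ioc (0 : ℝ) 1) :
    1 ≤ (R ^ (n - 2))⁻¹ * (r * (r * (b - a)) ^ (n - 1) * C.Q (r * (b - a) / R) ca cb)
          / ((r * ca) * (r * cb) * (b - a))
      + endL C r a b b (a, R, ca) + endL C r (-b) (-a) (-a) (-b, R, cb) := by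
  have hl : 0 < b - a := sub_pos.2 hab
  set t := r * (b - a) / R with ht
  have ht0 : 0 < t := by positivity
  have h := C.cert t ca cb ht0 hca hcb
  simp only [endL, integral_innK C (by omega) r R _ _ _ hR.ne',
    show -a - -b = b - a by ring]
  change t ≤ t ^ (n - 1) / (ca * cb) * C.Q t ca cb
      + (∫ ρ in (0 : ℝ)..t, ρ ^ (n - 1) * C.E ρ ca) / ca
      + (∫ ρ in (0 : ℝ)..t, ρ ^ (n - 1) * C.E ρ cb) / cb + C.φ ca + C.φ cb at h
  have hn1 : R ^ n = R ^ (n - 1) * R := by rw [← pow_succ]; congr 1; omega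
  have hn2 : R ^ (n - 1) = R ^ (n - 2) * R := by rw [← pow_succ]; congr 1; omega
  have hpow : (r * (b - a)) ^ (n - 1) = t ^ (n - 1) * R ^ (n - 1) := by
    rw [← mul_pow, ht, div_mul_cancel₀ _ hR.ne']
  have htR : t * R = r * (b - a) := div_mul_cancel₀ _ hR.ne'
  have hca0 := hca.1
  have hcb0 := hcb.1
  rw [hpow, hn1, hn2]
  rw [← ht]
  refine le_of_mul_le_mul_left ?_ ht0
  refine le_trans ((mul_one t).trans_le h) (le_of_eq ?_)
  rw [show t = r * (b - a) / R from ht]
  field_simp
  ring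

end Vale.Agent.P219.Lines
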