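import Vale.Agent.P219.Geo.Dist
import Vale.Agent.P219.Geo.Liouville
import Vale.Agent.P219.Lines.Moments
import Vale.Agent.P219.Lines.ChordEnd
import Vale.Agent.P219.Var.Bands

/-!
# P219 module Lines: the Santalo step

Transport along geodesics with the Liouville measure on the unit ball bundle, and Fatou at each
phase point `z`: with speed `r`, the integrand `r h_a h_b t^(n-1) Q(t/R)`, spread over `b - a`,
tends to `W Q / t`, and `h φ(c⁺) c⁺` at band points, spread over the exit time from `{u > s}`,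
tends to `φ / t`; the interior term is spread the same way, with
`h ∫_0^T u_k (rs)^(n-1) E(rs/R) r ds` in place of `h φ c`.
-/

open scoped ENNReal
open MeasureTheory Set Filter Topology

namespace Vale.Agent.P219

variable {n : ℕ} [NeZero n] {G : EE n → Form n}

/-- The Santalo step for a line kernel. -/
theorem chord_bound_lker (hn : 2 ≤ n) (hG : IsCH G) (C : LKer n) {o : EE n} {R₀ s R : ℝ}
    {u : EE n → ℝ} (hu : Adm hG o R₀ u) (hs : 0 < s) (htr : Transversal hG u s)
    {κ Rs : ℕ → ℝ} (hκ : Tendsto κ atTop atTop) (hκ0 : ∀ k, 0 < κ k) (hR : 0 < R)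
    (hRs : Tendsto Rs atTop (𝓝 R)) {M : ℝ}
    (hM : ∀ᶠ k in atTop, LKer.PI hG C (band (κ k) s u) (Rs k) / (n * Rs k ^ (n - 2))
      + 2 * LKer.IPI hG C (band (κ k) s u) (Rs k) / (n * Rs k ^ (n - 1))
      + 2 * (ballMoment n (fun c => c * C.φ c) / omega n) * omega n * Rs k * TV G (band (κ k) s u) ≤ M) :
    omega n * (rVol G {x | s < u x}).toReal ≤ M := by
  have hc : HasCompactSupport u := (isCompact_gball hG o R₀).of_isClosed_subset
    (isClosed_tsupport u) hu.supp
  set U := {x | s < u x} with hUdef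
  have hU : IsOpen U := isOpen_lt continuous_const hu.smooth.continuous
  have hUfin : rVol G U ≠ ⊤ := by
    have := isFiniteMeasureOnCompacts_rVol hG
    refine ne_top_of_le_ne_top (IsCompact.measure_lt_top (μ := rVol G) hc).ne
      (measure_mono fun x hx => subset_tsupport u ?_)
    exact (lt_trans hs hx).ne'
  set w := fun k => band (κ k) s u
  have hw : ∀ k, Adm hG o R₀ (w k) := fun k => band_adm hG hu hs (hκ0 k)
  have hψ : Continuous fun c => c * C.φ c := continuous_id.mul C.cont_φ
  have hψ0 : ∀ c, 0 ≤ c → 0 ≤ c * C.φ c := fun c hc => mul_nonneg hc (C.φ_nonneg c hc)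
  set E := fun k => Lines.endF hG C (w k) U (Rs k)
  have hE : ∀ k, Measurable (E k) := fun k =>
    ((measurable_bdryF hG hψ (hw k).smooth).const_mul _).add
      ((measurable_intF hG C (hw k).smooth hU _).const_mul _)
  set P := fun k z => ENNReal.ofReal (Rs k ^ (n - 2))⁻¹ * pairG hG C (w k) (Rs k) z
  set Φ := fun k (z : EE n × EE n) =>
    P k z + spreadG hG U (E k) z + spreadG hG U (E k) (z.1, -z.2)
  have hP : ∀ k, Measurable (P k) := fun k =>
    (measurable_pairG hG C (hw k).smooth _).const_mul _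
  have hS : ∀ k, Measurable (spreadG hG U (E k)) := fun k => measurable_spreadG hG hU (hE k)
  have hΦ : ∀ k, Measurable (Φ k) := fun k =>
    ((hP k).add (hS k)).add ((hS k).comp (measurable_fst.prodMk measurable_snd.neg))
  have hbm : ∀ k, 0 ≤ ballMoment n (fun c => c * C.φ c) * TV G (w k) := fun k =>
    mul_nonneg (integral_nonneg fun v => hψ0 _ (le_max_left _ _)) (TV_nonneg _)
  have hω : 0 < omega n := omega_pos
  have hmu : ballMoment n (fun c => c * C.φ c) / omega n * omega n
      = ballMoment n (fun c => c * C.φ c) := div_mul_cancel₀ _ hω.ne'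
  -- the integral of the spread densities
  have hint : ∀ᶠ k in atTop, ∫⁻ z in ballB G, Φ k z ∂phase G ≤ ENNReal.ofReal M ∧ 0 ≤ M := by
    filter_upwards [hM, hRs.eventually_const_lt hR] with k hk hRk
    have h1 : ∫⁻ z in ballB G, P k z ∂phase G
        ≤ ENNReal.ofReal (LKer.PI hG C (w k) (Rs k) / (n * Rs k ^ (n - 2))) := by
      rw [lintegral_const_mul _ (measurable_pairG hG C (hw k).smooth _)]
      refine (mul_le_mul_right (lintegral_pairG_le hn hG C (hw k) hRk) _).trans_eq ?_
      rw [← ENNReal.ofReal_mul (by positivity)]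
      congr 1
      field_simp
    have h2 : ∫⁻ z in ballB G, spreadG hG U (E k) z ∂phase G
        ≤ ENNReal.ofReal (Rs k * (ballMoment n (fun c => c * C.φ c) * TV G (w k))
          + LKer.IPI hG C (w k) (Rs k) / (n * Rs k ^ (n - 1))) := by
      refine (lintegral_spreadG_le hG hU (hE k)).trans ?_
      show ∫⁻ z in ballB G, ENNReal.ofReal (Rs k) * bdryF G (fun c => c * C.φ c) (w k) z
        + ENNReal.ofReal (Rs k ^ (n - 1))⁻¹ * intF hG C (w k) U (Rs k) z ∂phase G ≤ _
      rw [lintegral_add_left ((measurable_bdryF hG hψ (hw k).smooth).const_mul _),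
        lintegral_const_mul _ (measurable_bdryF hG hψ (hw k).smooth),
        lintegral_const_mul _ (measurable_intF hG C (hw k).smooth hU _),
        lintegral_bdryF hG (hw k) hψ hψ0, ← ENNReal.ofReal_mul hRk.le,
        ENNReal.ofReal_add (mul_nonneg hRk.le (hbm k))
          (div_nonneg (LKer.IPI_nonneg hG C (hw k).nonneg hRk.le) (by positivity))]
      refine add_le_add le_rfl ?_
      refine (mul_le_mul_right (lintegral_intF_le hn hG C (hw k) hRk hU) _).trans_eq ?_
      rw [← ENNReal.ofReal_mul (by positivity)]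
      congr 1
      field_simp
    have n1 : 0 ≤ LKer.PI hG C (w k) (Rs k) / (n * Rs k ^ (n - 2)) :=
      div_nonneg (LKer.PI_nonneg hG C _ hRk.le) (by positivity)
    have n2 : 0 ≤ Rs k * (ballMoment n (fun c => c * C.φ c) * TV G (w k))
        + LKer.IPI hG C (w k) (Rs k) / (n * Rs k ^ (n - 1)) :=
      add_nonneg (mul_nonneg hRk.le (hbm k))
        (div_nonneg (LKer.IPI_nonneg hG C (hw k).nonneg hRk.le) (by positivity))
    have hle : LKer.PI hG C (w k) (Rs k) / (n * Rs k ^ (n - 2))
        + (Rs k * (ballMoment n (fun c => c * C.φ c) * TV G (w k))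
          + LKer.IPI hG C (w k) (Rs k) / (n * Rs k ^ (n - 1)))
        + (Rs k * (ballMoment n (fun c => c * C.φ c) * TV G (w k))
          + LKer.IPI hG C (w k) (Rs k) / (n * Rs k ^ (n - 1))) ≤ M := by
      refine le_trans (le_of_eq ?_) hk
      rw [mul_assoc 2 _ (omega n), hmu]
      ring
    refine ⟨?_, le_trans (add_nonneg (add_nonneg n1 n2) n2) hle⟩
    refine le_trans ?_ (ENNReal.ofReal_le_ofReal hle)
    rw [ENNReal.ofReal_add (add_nonneg n1 n2) n2, ENNReal.ofReal_add n1 n2]
    show ∫⁻ z in ballB G, P k z + spreadG hG U (E k) z + spreadG hG U (E k) (z.1, -z.2) ∂phase G ≤ _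
    rw [lintegral_add_left ((hP k).fun_add (hS k)), lintegral_add_left (hP k),
      lintegral_ball_rev hG (hS k)]
    exact add_le_add (add_le_add h1 h2) h2
  -- almost every point
  have hnull : ∀ᵐ z ∂phase G, z.2 ≠ (0 : EE n) := by
    refine (withDensity_absolutelyContinuous _ _).ae_le ?_
    show ∀ᵐ z ∂(volume : Measure (EE n × EE n)), z.2 ≠ 0
    rw [ae_iff]
    simp only [ne_eq, not_not]
    rw [show {z : EE n × EE n | z.2 = 0} = univ ×ˢ {0} by ext; simp, Measure.volume_eq_prod,
      Measure.prod_prod, measure_singleton, mul_zero]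
  have hpt : ∀ᵐ z ∂(phase G).restrict (ballB G),
      (Prod.fst ⁻¹' U).indicator 1 z ≤ liminf (fun k => Φ k z) atTop := by
    filter_upwards [ae_restrict_of_ae htr, ae_restrict_of_ae hnull] with z hz hv
    by_cases hzU : z ∈ Prod.fst ⁻¹' U
    swap
    · rw [indicator_of_notMem hzU]; exact zero_le
    rw [indicator_of_mem hzU]; show (1 : ℝ≥0∞) ≤ _
    have hr : 0 < gnorm G z.1 z.2 :=
      lt_of_le_of_ne (gnorm_nonneg _ _) (fun h => hv ((gnorm_eq_zero hG).1 h.symm))
    have hdw : ∀ t, u (geoPt hG z t) = s → Lines.dw hG u z t ≠ 0 := fun t ht => by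
      rw [← (Lines.hasDerivAt_comp_geoPt hG hu.smooth z t).deriv]
      exact hz t ht
    obtain ⟨a, b, ha, hb, has, hbs, hin, had, hbd⟩ :=
      Lines.exists_segment hG hu.smooth hc hs hr hzU hdw
    have hab : a < b := ha.trans hb
    have hca := (Lines.cw_mem_of_pos hG had).1
    have had' : 0 < Lines.dw hG u (z.1, -z.2) (-b) := by
      rw [Lines.dw_rev, neg_neg]; linarith
    have hcb := (Lines.cw_mem_of_pos hG had').1
    rw [Lines.cw_rev, neg_neg] at hcb
    have hcert := Lines.cert_one C hn hr hR hab hca hcb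
    have hlim : Tendsto (fun ε : ℝ => ENNReal.ofReal (1 - 3 * ε)) (𝓝[>] 0) (𝓝 1) := by
      have : Continuous fun ε : ℝ => ENNReal.ofReal (1 - 3 * ε) :=
        ENNReal.continuous_ofReal.comp (by fun_prop)
      simpa using (this.tendsto 0).mono_left nhdsWithin_le_nhds
    refine le_of_tendsto hlim ?_
    filter_upwards [self_mem_nhdsWithin] with ε hε
    refine le_liminf_of_le (by isBoundedDefault) ?_
    filter_upwards [Lines.pair_lower hG C hu.smooth hκ hR hRs hr ha hb has hbs hin had hbd hε,
      Lines.end_lower hG C hu.smooth hκ hR hRs hr ha hb has hbs hin had hε,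
      Lines.end_lower hG C hu.smooth (s := s) hκ hR hRs (z := (z.1, -z.2))
        (by rwa [Lines.gnorm_neg hG]) (neg_lt_zero.2 hb) (neg_pos.2 ha)
        (by rw [Lines.geoPt_rev, neg_neg]; exact hbs)
        (by rw [Lines.geoPt_rev, neg_neg]; exact has)
        (fun t ht => by
          rw [Lines.geoPt_rev]
          exact hin (-t) ⟨by linarith [ht.2], by linarith [ht.1]⟩) had' hε] with k h1 h2 h3
    rw [Lines.gnorm_neg hG, Lines.cw_rev, neg_neg] at h3
    refine le_trans (le_trans (ENNReal.ofReal_le_ofReal ?_)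
      (ENNReal.ofReal_add_le.trans (add_le_add ENNReal.ofReal_add_le le_rfl)))
      (add_le_add (add_le_add h1 h2) h3)
    linarith
  -- Fatou
  obtain ⟨k, -, hM0⟩ := hint.exists
  rw [← ENNReal.ofReal_le_ofReal_iff hM0]
  calc ENNReal.ofReal (omega n * (rVol G U).toReal)
      = ∫⁻ z in ballB G, (Prod.fst ⁻¹' U).indicator 1 z ∂phase G := by
        rw [lintegral_indicator_one (hU.measurableSet.preimage measurable_fst),
          Measure.restrict_apply (hU.measurableSet.preimage measurable_fst), inter_comm,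
          phase_ball_preimage hG hU.measurableSet, ENNReal.ofReal_mul hω.le,
          ENNReal.ofReal_toReal hUfin]
    _ ≤ ∫⁻ z in ballB G, liminf (fun k => Φ k z) atTop ∂phase G := lintegral_mono_ae hpt
    _ ≤ liminf (fun k => ∫⁻ z in ballB G, Φ k z ∂phase G) atTop := lintegral_liminf_le hΦ
    _ ≤ ENNReal.ofReal M := liminf_le_of_le (by isBoundedDefault) fun c hc => by
        obtain ⟨j, hj⟩ := (hc.and hint).exists
        exact hj.1.trans hj.2.1

theorem chord_bound (hn : 2 ≤ n) (hG : IsCH G) (C : Calib n) {o : EE n} {R₀ s R : ℝ}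
    {u : EE n → ℝ} (hu : Adm hG o R₀ u) (hs : 0 < s) (htr : Transversal hG u s)
    {κ Rs : ℕ → ℝ} (hκ : Tendsto κ atTop atTop) (hκ0 : ∀ k, 0 < κ k) (hR : 0 < R)
    (hRs : Tendsto Rs atTop (𝓝 R)) {M : ℝ}
    (hM : ∀ᶠ k in atTop, PI hG C (band (κ k) s u) (Rs k) / (n * Rs k ^ (n - 2))
      + 2 * IPI hG C (band (κ k) s u) (Rs k) / (n * Rs k ^ (n - 1))
      + 2 * C.mu * omega n * Rs k * TV G (band (κ k) s u) ≤ M) :
    omega n * (rVol G {x | s < u x}).toReal ≤ M :=
  chord_bound_lker hn hG C.lker hu hs htr hκ hκ0 hR hRs hM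

end Vale.Agent.P219
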