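import Vale.Agent.P219.Lines.Segment

/-!
# P219 module Lines: the lower limit of the spread densities on one geodesic

At a phase point inside `{u > s}` whose geodesic crosses the level transversally the spread pair
and end densities of the bands have lower limit at least the right side of the certificate,
divided by the length of the chord.
-/

open scoped ENNReal
open MeasureTheory Set Filter Topology

namespace Vale.Agent.P219.Lines

variable {n : ℕ} {G : EE n → Form n}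

/-- the density at a state: boundary and interior term -/
noncomputable def endF (hG : IsCH G) (C : LKer n) (w : EE n → ℝ) (U : Set (EE n)) (R : ℝ)
    (q : EE n × EE n) : ℝ≥0∞ :=
  ENNReal.ofReal R * bdryF G (fun c => c * C.φ c) w q
    + ENNReal.ofReal (R ^ (n - 1))⁻¹ * intF hG C w U R q

/-- the interior integrand with the inverse radius as parameter -/
noncomputable def innK (C : LKer n) (r : ℝ) (q : ℝ × ℝ × ℝ) (l : ℝ) : ℝ :=
  r * (r * (l - q.1)) ^ (n - 1) * C.E (r * (l - q.1) * q.2.1) q.2.2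

lemma continuous_innK (C : LKer n) (r : ℝ) :
    Continuous (Function.uncurry (innK C r)) := by
  have h := C.continuous_E
  show Continuous fun x : (ℝ × ℝ × ℝ) × ℝ =>
    r * (r * (x.2 - x.1.1)) ^ (n - 1) * C.E (r * (x.2 - x.1.1) * x.1.2.1) x.1.2.2
  fun_prop

lemma fwdSet_eq (hG : IsCH G) {u : EE n → ℝ} {s : ℝ} {z : EE n × EE n} {σ b : ℝ}
    (hσ : σ ≤ b) (hin : ∀ t ∈ Ico σ b, s < u (geoPt hG z t)) (hb : u (geoPt hG z b) ≤ s) :
    fwdSet hG {x | s < u x} (flowG hG σ z) = Ioo 0 (b - σ) := by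
  ext l
  simp only [fwdSet, mem_ofPred_eq, geoPt_flow, mem_Ioo]
  constructor
  · rintro ⟨h0, h⟩
    refine ⟨h0, not_le.1 fun hle => ?_⟩
    have := h (b - σ) ⟨by linarith, hle⟩
    rw [sub_add_cancel] at this
    linarith
  · rintro ⟨h0, h⟩
    exact ⟨h0, fun c hc => hin _ ⟨by linarith [hc.1], by linarith [hc.2]⟩⟩

/-- the band is eventually one on compact parts of the segment -/
lemma eventually_band_one (hG : IsCH G) {u : EE n → ℝ} (hu : Continuous u) {s a' b' : ℝ}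
    {z : EE n × EE n} {κ : ℕ → ℝ} (hκ : Tendsto κ atTop atTop)
    (hin : ∀ t ∈ Icc a' b', s < u (geoPt hG z t)) :
    ∀ᶠ k in atTop, ∀ t ∈ Icc a' b', band (κ k) s u (geoPt hG z t) = 1 := by
  obtain ⟨m, hm, hle⟩ := isCompact_Icc.exists_forall_le' (a := (0 : ℝ))
    ((hu.comp (continuous_geoPt hG z)).sub continuous_const).continuousOn
    (fun t ht => sub_pos.2 (hin t ht))
  filter_upwards [hκ.eventually_ge_atTop (2 / m), hκ.eventually_ge_atTop 0] with k hk hk0 t ht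
  refine band_one ?_
  have h2 : 2 ≤ κ k * m := (div_le_iff₀ hm).1 hk
  exact h2.trans (mul_le_mul_of_nonneg_left (hle t ht) hk0)

lemma intF_ge (hG : IsCH G) (C : LKer n) {u : EE n → ℝ} (hu : ContDiff ℝ 1 u) {s κ R : ℝ}
    (hκ : 0 ≤ κ) (hR : 0 < R) {z : EE n × EE n} {σ a' b' b : ℝ} (h1 : σ < a') (h2 : a' ≤ b')
    (h3 : b' < b) (hin : ∀ t ∈ Ico σ b, s < u (geoPt hG z t)) (hb : u (geoPt hG z b) ≤ s)
    (hone : ∀ t ∈ Icc a' b', band κ s u (geoPt hG z t) = 1)
    (hw : bw κ s u (geoPt hG z σ) ≠ 0) :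
    ENNReal.ofReal (bw κ s u (geoPt hG z σ)
        * conorm G (geoPt hG z σ) (fderiv ℝ u (geoPt hG z σ))
        * ∫ l in a'..b', innK C (gnorm G z.1 z.2) (σ, R⁻¹, cw hG u z σ) l)
      ≤ intF hG C (band κ s u) {x | s < u x} R (flowG hG σ z) := by
  set r := gnorm G z.1 z.2
  set h := bw κ s u (geoPt hG z σ) * conorm G (geoPt hG z σ) (fderiv ℝ u (geoPt hG z σ))
  have hh : 0 ≤ h := mul_nonneg (bw_nonneg hκ u _) (conorm_nonneg _ _)
  set g : ℝ → ℝ := fun l => innK C r (σ, R⁻¹, cw hG u z σ) l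
  have hgc : Continuous g := (continuous_innK C r).comp (continuous_const.prodMk continuous_id)
  have hshift : ∫ l in (a' - σ)..(b' - σ), g (l + σ) = ∫ l in a'..b', g l := by
    rw [intervalIntegral.integral_comp_add_right, sub_add_cancel, sub_add_cancel]
  rw [← hshift, ← intervalIntegral.integral_const_mul,
    intervalIntegral.integral_of_le (by linarith),
    ofReal_integral_eq_lintegral_ofReal
      (((show Continuous fun l => h * g (l + σ) by fun_prop)).integrableOn_Ioc)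
      (by
        filter_upwards [ae_restrict_mem measurableSet_Ioc] with l hl
        have hl0 : 0 ≤ l + σ - σ := by linarith [hl.1]
        exact mul_nonneg hh (mul_nonneg (mul_nonneg (gnorm_nonneg _ _)
          (pow_nonneg (mul_nonneg (gnorm_nonneg _ _) hl0) _))
          (C.E_nonneg (mul_nonneg (mul_nonneg (gnorm_nonneg _ _) hl0) (inv_nonneg.2 hR.le))
            (abs_le.1 (abs_lineCos_le_one hG _ _)))))]
  rw [intF, fwdSet_eq hG (by linarith) hin hb]
  refine (setLIntegral_mono' measurableSet_Ioc fun l hl => ?_).trans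
    (lintegral_mono_set (Ioc_subset_Ioo_right (by linarith) |>.trans (Ioo_subset_Ioo_left
      (by linarith))))
  have hsp : gnorm G (geoPt hG z σ) (flowG hG σ z).2 = r := flowG_speed hG z σ
  have hp : lineCos G (band κ s u) (flowG hG σ z) = cw hG u z σ := lineCos_band hG hκ hu hw
  rw [geoPt_flow, hone _ ⟨by linarith [hl.1], by linarith [hl.2]⟩, hp]
  refine le_of_eq (congrArg ENNReal.ofReal ?_)
  show h * g (l + σ) = conorm G (geoPt hG z σ) (fderiv ℝ (band κ s u) (geoPt hG z σ)) * 1 *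
    C.E (gnorm G (geoPt hG z σ) (flowG hG σ z).2 * l / R) (cw hG u z σ) *
    gnorm G (geoPt hG z σ) (flowG hG σ z).2 *
    (gnorm G (geoPt hG z σ) (flowG hG σ z).2 * l) ^ (n - 1)
  rw [conorm_band hG hκ hu, hsp]
  simp only [g, innK, add_sub_cancel_right, div_eq_mul_inv]
  ring

/-- the pair density as a function of the times, the radius and the cosines -/
noncomputable def pairL (C : LKer n) (r : ℝ) (p : (ℝ × ℝ) × ℝ × (ℝ × ℝ)) : ℝ :=
  (p.2.1 ^ (n - 2))⁻¹
    * (r * (r * (p.1.2 - p.1.1)) ^ (n - 1) * C.Q (r * (p.1.2 - p.1.1) / p.2.1) p.2.2.1 p.2.2.2)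
    / ((r * p.2.2.1) * (r * p.2.2.2) * (p.1.2 - p.1.1))

lemma continuousAt_pairL (C : LKer n) {r : ℝ} {p : (ℝ × ℝ) × ℝ × (ℝ × ℝ)} (hR : p.2.1 ≠ 0)
    (hp : (r * p.2.2.1) * (r * p.2.2.2) * (p.1.2 - p.1.1) ≠ 0) :
    ContinuousAt (pairL C r) p := by
  have e : Continuous fun p : (ℝ × ℝ) × ℝ × (ℝ × ℝ) => p.1.2 - p.1.1 := by fun_prop
  have hq : ContinuousAt (fun p : (ℝ × ℝ) × ℝ × (ℝ × ℝ) =>
      (r * (p.1.2 - p.1.1) / p.2.1, p.2.2.1, p.2.2.2)) p :=
    ((continuousAt_const.mul e.continuousAt).div (by fun_prop) hR).prodMk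
      (ContinuousAt.prodMk (by fun_prop) (by fun_prop))
  have hQ : ContinuousAt (fun p : (ℝ × ℝ) × ℝ × (ℝ × ℝ) =>
      C.Q (r * (p.1.2 - p.1.1) / p.2.1) p.2.2.1 p.2.2.2) p := by
    have h := C.continuous_Q
    generalize C.Q = Q at h ⊢
    exact ContinuousAt.comp (g := fun q : ℝ × ℝ × ℝ => Q q.1 q.2.1 q.2.2) h.continuousAt hq
  have hA : ContinuousAt (fun p : (ℝ × ℝ) × ℝ × (ℝ × ℝ) =>
      r * (r * (p.1.2 - p.1.1)) ^ (n - 1)) p := by fun_prop
  have hB : ContinuousAt (fun p : (ℝ × ℝ) × ℝ × (ℝ × ℝ) => (p.2.1 ^ (n - 2))⁻¹) p :=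
    ContinuousAt.inv₀ (by fun_prop) (pow_ne_zero _ hR)
  have hD : ContinuousAt (fun p : (ℝ × ℝ) × ℝ × (ℝ × ℝ) =>
      (r * p.2.2.1) * (r * p.2.2.2) * (p.1.2 - p.1.1)) p := by fun_prop
  unfold pairL
  exact (hB.fun_mul (hA.fun_mul hQ)).div hD hp

lemma pair_lower (hG : IsCH G) (C : LKer n) {u : EE n → ℝ} (hu : ContDiff ℝ 1 u) {s R : ℝ}
    {κ Rs : ℕ → ℝ} (hκ : Tendsto κ atTop atTop) (hR : 0 < R) (hRs : Tendsto Rs atTop (𝓝 R))
    {z : EE n × EE n} (hr : 0 < gnorm G z.1 z.2) {a b : ℝ} (ha : a < 0) (hb : 0 < b)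
    (has : u (geoPt hG z a) = s) (hbs : u (geoPt hG z b) = s)
    (hin : ∀ t ∈ Ioo a b, s < u (geoPt hG z t)) (had : 0 < dw hG u z a) (hbd : dw hG u z b < 0)
    {ε : ℝ} (hε : 0 < ε) :
    ∀ᶠ k in atTop, ENNReal.ofReal
        ((R ^ (n - 2))⁻¹ * (gnorm G z.1 z.2 * (gnorm G z.1 z.2 * (b - a)) ^ (n - 1)
          * C.Q (gnorm G z.1 z.2 * (b - a) / R) (cw hG u z a) (-cw hG u z b))
          / ((gnorm G z.1 z.2 * cw hG u z a) * (gnorm G z.1 z.2 * -cw hG u z b) * (b - a)) - ε)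
      ≤ ENNReal.ofReal (Rs k ^ (n - 2))⁻¹ * pairG hG C (band (κ k) s u) (Rs k) z := by
  set r := gnorm G z.1 z.2
  obtain ⟨hca, hna⟩ := cw_mem_of_pos hG had
  have hbd' : 0 < dw hG u (z.1, -z.2) (-b) := by rw [dw_rev, neg_neg]; linarith
  obtain ⟨hcb, hnb⟩ := cw_mem_of_pos hG hbd'
  rw [geoPt_rev, neg_neg] at hnb
  rw [cw_rev, neg_neg] at hcb
  set L := pairL C r
  have hL : ContinuousAt L ((a, b), R, cw hG u z a, -cw hG u z b) :=
    continuousAt_pairL C hR.ne' (mul_ne_zero (mul_ne_zero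
      (mul_pos hr hca.1).ne' (mul_pos hr hcb.1).ne') (sub_pos.2 (ha.trans hb)).ne')
  have hT : Tendsto (fun x : (ℝ × ℝ) × ℕ =>
      (x.1, Rs x.2, cw hG u z x.1.1, -cw hG u z x.1.2)) (𝓝 (a, b) ×ˢ atTop)
      (𝓝 ((a, b), R, cw hG u z a, -cw hG u z b)) := by
    refine tendsto_fst.prodMk_nhds ((hRs.comp tendsto_snd).prodMk_nhds (Tendsto.prodMk_nhds ?_ ?_))
    · exact ((continuousAt_cw hG hu hr.ne' hna.ne').tendsto.comp
        (continuous_fst.tendsto (a, b))).comp tendsto_fst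
    · exact (((continuousAt_cw hG hu hr.ne' hnb.ne').neg.tendsto).comp
        (continuous_snd.tendsto (a, b))).comp tendsto_fst
  obtain ⟨pa, hpa, pk, hpk, hp⟩ := eventually_prod_iff.1
    ((hL.tendsto.comp hT).eventually_const_le (sub_lt_self _ hε))
  rw [nhds_prod_eq] at hpa
  obtain ⟨qa, hqa, qb, hqb, hq⟩ := eventually_prod_iff.1 hpa
  have h1 : ∀ᶠ t in 𝓝 a, qa t ∧ t < 0 ∧ 0 < dw hG u z t :=
    hqa.and ((eventually_lt_nhds ha).and
      ((continuous_dw hG hu z).continuousAt.eventually_const_lt had))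
  have h2 : ∀ᶠ t in 𝓝 b, qb t ∧ 0 < t ∧ dw hG u z t < 0 :=
    hqb.and ((eventually_gt_nhds hb).and
      ((continuous_dw hG hu z).continuousAt.eventually_lt_const hbd))
  obtain ⟨δa, hδa, hwa⟩ := Metric.eventually_nhds_iff.1 h1
  obtain ⟨δb, hδb, hwb⟩ := Metric.eventually_nhds_iff.1 h2
  obtain ⟨δ, hδ, hd1, hd2⟩ : ∃ δ : ℝ, 0 < δ ∧ δ < δa ∧ δ < δb :=
    ⟨min δa δb / 2, by positivity, by linarith [min_le_left δa δb],
      by linarith [min_le_right δa δb]⟩
  have wa : ∀ t ∈ Icc a (a + δ), qa t ∧ t < 0 ∧ 0 < dw hG u z t := fun t ht =>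
    hwa (by rw [Real.dist_eq, abs_lt]; constructor <;> linarith [ht.1, ht.2])
  have wb : ∀ t ∈ Icc (b - δ) b, qb t ∧ 0 < t ∧ dw hG u z t < 0 := fun t ht =>
    hwb (by rw [Real.dist_eq, abs_lt]; constructor <;> linarith [ht.1, ht.2])
  have sa : s < u (geoPt hG z (a + δ)) :=
    hin _ ⟨by linarith, by linarith [(wa (a + δ) ⟨by linarith, le_rfl⟩).2.1]⟩
  have sb : s < u (geoPt hG z (b - δ)) :=
    hin _ ⟨by linarith [(wb (b - δ) ⟨le_rfl, by linarith⟩).2.1], by linarith⟩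
  filter_upwards [hpk, hκ.eventually_ge_atTop 0,
    hκ.eventually_ge_atTop (2 / (u (geoPt hG z (a + δ)) - s)),
    hκ.eventually_ge_atTop (2 / (u (geoPt hG z (b - δ)) - s)),
    hRs.eventually_const_lt hR] with k hk hκ0 hκa hκb hRk
  set c := L ((a, b), R, cw hG u z a, -cw hG u z b) - ε
  show ENNReal.ofReal c ≤ _
  set ma := fun t => κ k * stepD (κ k * (u (geoPt hG z t) - s) - 1) * dw hG u z t
  set mb := fun t => κ k * stepD (κ k * (u (geoPt hG z t) - s) - 1) * -dw hG u z t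
  have Ma : ∫⁻ t in Ioo a (a + δ), ENNReal.ofReal (ma t) = 1 :=
    mass_one (hasDerivAt_comp_geoPt hG hu z) (continuous_dw hG hu z) hκ0 (by linarith)
      (fun t ht => (wa t ht).2.2.le) has.le ((div_le_iff₀ (sub_pos.2 sa)).1 hκa)
  have Mb : ∫⁻ t in Ioo (b - δ) b, ENNReal.ofReal (mb t) = 1 :=
    mass_one' (hasDerivAt_comp_geoPt hG hu z) (continuous_dw hG hu z) hκ0 (by linarith)
      (fun t ht => (wb t ht).2.2.le) hbs.le ((div_le_iff₀ (sub_pos.2 sb)).1 hκb)
  have key : ∀ x ∈ Ioo a (a + δ), ∀ y ∈ Ioo (b - δ) b,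
      ENNReal.ofReal (ma x) * (ENNReal.ofReal (mb y) * ENNReal.ofReal c)
        ≤ ENNReal.ofReal (Rs k ^ (n - 2))⁻¹
          * ENNReal.ofReal (pairK hG C (band (κ k) s u) (Rs k) z x y) := by
    intro x hx y hy
    obtain ⟨qx, -, dx⟩ := wa x (Ioo_subset_Icc_self hx)
    obtain ⟨qy, -, dy⟩ := wb y (Ioo_subset_Icc_self hy)
    have hc := hp (hq qx qy) hk
    have hx0 : 0 ≤ ma x := mul_nonneg (bw_nonneg hκ0 u _) dx.le
    have hy0 : 0 ≤ mb y := mul_nonneg (bw_nonneg hκ0 u _) (neg_nonneg.2 dy.le)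
    rw [← ENNReal.ofReal_mul hy0, ← ENNReal.ofReal_mul hx0,
      ← ENNReal.ofReal_mul (inv_nonneg.2 (pow_nonneg hRk.le _))]
    refine ENNReal.ofReal_le_ofReal ((mul_le_mul_of_nonneg_left
      (mul_le_mul_of_nonneg_left hc hy0) hx0).trans_eq ?_)
    by_cases hz1 : bw (κ k) s u (geoPt hG z x) = 0
    · have : ma x = 0 := by show bw (κ k) s u (geoPt hG z x) * _ = 0; rw [hz1, zero_mul]
      simp only [pairK, conorm_band hG hκ0 hu, this]
      rw [show bw (κ k) s u (flowG hG x z).1 = 0 from hz1]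
      simp
    by_cases hz2 : bw (κ k) s u (geoPt hG z y) = 0
    · have : mb y = 0 := by show bw (κ k) s u (geoPt hG z y) * _ = 0; rw [hz2, zero_mul]
      simp only [pairK, conorm_band hG hκ0 hu, this]
      rw [show bw (κ k) s u (flowG hG y z).1 = 0 from hz2]
      simp
    obtain ⟨⟨cx, -⟩, -⟩ := cw_mem_of_pos hG dx
    have dy' : 0 < dw hG u (z.1, -z.2) (-y) := by rw [dw_rev, neg_neg]; linarith
    obtain ⟨⟨cy, -⟩, -⟩ := cw_mem_of_pos hG dy'
    rw [cw_rev, neg_neg] at cy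
    have hcy : cw hG u z y ≠ 0 := fun h => by rw [h, neg_zero] at cy; exact lt_irrefl _ cy
    simp only [pairK, conorm_band hG hκ0 hu, lineCos_rev hG]
    rw [show lineCos G (band (κ k) s u) (flowG hG x z) = cw hG u z x from
        lineCos_band hG hκ0 hu hz1,
      show lineCos G (band (κ k) s u) (flowG hG y z) = cw hG u z y from
        lineCos_band hG hκ0 hu hz2]
    show bw (κ k) s u (geoPt hG z x) * dw hG u z x *
        (bw (κ k) s u (geoPt hG z y) * -dw hG u z y * L ((x, y), Rs k, cw hG u z x, -cw hG u z y))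
      = (Rs k ^ (n - 2))⁻¹ *
        (bw (κ k) s u (geoPt hG z x) * conorm G (geoPt hG z x) (fderiv ℝ u (geoPt hG z x)) *
          (bw (κ k) s u (geoPt hG z y) * conorm G (geoPt hG z y) (fderiv ℝ u (geoPt hG z y))) *
          C.Q (r * (y - x) / Rs k) (cw hG u z x) (-cw hG u z y) * r * (r * (y - x)) ^ (n - 1)
            / (y - x))
    simp only [L, pairL, dw_eq hG u z]
    field_simp
    ring
  rw [pairG]
  calc ENNReal.ofReal c
      = ∫⁻ x in Ioo a (a + δ), ∫⁻ y in Ioo (b - δ) b,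
          ENNReal.ofReal (ma x) * (ENNReal.ofReal (mb y) * ENNReal.ofReal c) := by
        simp_rw [lintegral_const_mul' _ _ ENNReal.ofReal_ne_top,
          lintegral_mul_const' _ _ ENNReal.ofReal_ne_top, Mb, one_mul]
        rw [lintegral_mul_const' _ _ ENNReal.ofReal_ne_top, Ma, one_mul]
    _ ≤ ∫⁻ x in Ioo a (a + δ), ∫⁻ y in Ioo (b - δ) b, ENNReal.ofReal (Rs k ^ (n - 2))⁻¹
          * ENNReal.ofReal (pairK hG C (band (κ k) s u) (Rs k) z x y) :=
        setLIntegral_mono' measurableSet_Ioo fun x hx =>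
          setLIntegral_mono' measurableSet_Ioo fun y hy => key x hx y hy
    _ ≤ _ := by
        simp_rw [lintegral_const_mul' _ _ ENNReal.ofReal_ne_top]
        refine mul_le_mul_right ((lintegral_mono fun x => lintegral_mono_set ?_).trans
          (lintegral_mono_set ?_)) _
        · exact fun y hy => (wb y (Ioo_subset_Icc_self hy)).2.1
        · exact fun x hx => (wa x (Ioo_subset_Icc_self hx)).2.1

end Vale.Agent.P219.Lines
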