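import Vale.Agent.P219.Core

/-!
# P219 module Lines: what the Santalo step uses of a calibration
-/

open MeasureTheory Set

namespace Vale.Agent.P219

variable {n : ℕ} {G : EE n → Form n}

/-- A pair kernel, an interior kernel and a boundary multiplier satisfying the certificate. -/
structure LKer (n : ℕ) where
  Q : ℝ → ℝ → ℝ → ℝ
  E : ℝ → ℝ → ℝ
  φ : ℝ → ℝ
  continuous_Q : Continuous fun p : ℝ × ℝ × ℝ => Q p.1 p.2.1 p.2.2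
  continuous_E : Continuous fun p : ℝ × ℝ => E p.1 p.2
  cont_φ : Continuous φ
  Q_nonneg : ∀ {t a b}, 0 ≤ t → a ∈ Icc (-1 : ℝ) 1 → b ∈ Icc (-1 : ℝ) 1 → 0 ≤ Q t a b
  E_nonneg : ∀ {t c}, 0 ≤ t → c ∈ Icc (-1 : ℝ) 1 → 0 ≤ E t c
  φ_nonneg : ∀ c, 0 ≤ c → 0 ≤ φ c
  exists_Q_bound : ∃ B, ∀ t a b, 0 ≤ t → a ∈ Icc (-1 : ℝ) 1 → b ∈ Icc (-1 : ℝ) 1 → |Q t a b| ≤ B
  exists_E_bound : ∃ B, ∀ t c, 0 ≤ t → c ∈ Icc (-1 : ℝ) 1 → |E t c| ≤ B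
  cert : ∀ t a b, 0 < t → a ∈ Ioc (0 : ℝ) 1 → b ∈ Ioc (0 : ℝ) 1 →
    t ≤ t ^ (n - 1) / (a * b) * Q t a b
      + (∫ r in (0 : ℝ)..t, r ^ (n - 1) * E r a) / a
      + (∫ r in (0 : ℝ)..t, r ^ (n - 1) * E r b) / b
      + φ a + φ b

/-- The pair integral of a kernel. -/
noncomputable def LKer.PI (hG : IsCH G) (C : LKer n) (u : EE n → ℝ) (R : ℝ) : ℝ :=
  ∫ x, ∫ y, conorm G x (fderiv ℝ u x) * conorm G y (fderiv ℝ u y) *
      C.Q (gdist hG x y / R) (ucos hG u y x) (ucos hG u x y) ∂rVol G ∂rVol G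

/-- The interior integral of a kernel. -/
noncomputable def LKer.IPI (hG : IsCH G) (C : LKer n) (u : EE n → ℝ) (R : ℝ) : ℝ :=
  ∫ x, ∫ y, conorm G x (fderiv ℝ u x) * u y *
      C.E (gdist hG x y / R) (ucos hG u y x) ∂rVol G ∂rVol G

end Vale.Agent.P219
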