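import Vale.Agent.P219.Lines.Transport

/-!
# P219 module Lines: continuity facts along one geodesic
-/

open scoped ENNReal
open MeasureTheory Set Filter Topology

namespace Vale.Agent.P219.Lines

variable {n : ℕ} {G : EE n → Form n}

lemma continuous_geoPt (hG : IsCH G) (z : EE n × EE n) : Continuous (geoPt hG z) :=
  continuous_fst.comp ((continuous_flowG hG).comp (continuous_id.prodMk continuous_const))

lemma continuous_flowAt (hG : IsCH G) (z : EE n × EE n) : Continuous fun t => flowG hG t z :=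
  (continuous_flowG hG).comp (continuous_id.prodMk continuous_const)

lemma flow_rev (hG : IsCH G) (z : EE n × EE n) (t : ℝ) :
    flowG hG t (z.1, -z.2) = ((flowG hG (-t) z).1, -(flowG hG (-t) z).2) := by
  have h := flowG_rev hG z 0 t
  rwa [flowG_zero, zero_sub] at h

lemma geoPt_rev (hG : IsCH G) (z : EE n × EE n) (t : ℝ) :
    geoPt hG (z.1, -z.2) t = geoPt hG z (-t) := by simp only [geoPt, flow_rev]

lemma geoPt_flow (hG : IsCH G) (z : EE n × EE n) (a t : ℝ) :
    geoPt hG (flowG hG a z) t = geoPt hG z (t + a) := congrArg Prod.fst (flowG_add hG t a z).symm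

lemma gnorm_neg (hG : IsCH G) (x v : EE n) : gnorm G x (-v) = gnorm G x v := by
  rw [← neg_one_smul ℝ v, gnorm_smul hG, abs_neg, abs_one, one_mul]

lemma gdist_geoPt (hG : IsCH G) (z : EE n × EE n) (t : ℝ) :
    gdist hG z.1 (geoPt hG z t) = |t| * gnorm G z.1 z.2 := by
  rw [geoPt_eq_expG, gdist_expG, gnorm_smul hG]

/-- the derivative of `u` along the geodesic of `z` -/
noncomputable def dw (hG : IsCH G) (u : EE n → ℝ) (z : EE n × EE n) (t : ℝ) : ℝ :=
  fderiv ℝ u (geoPt hG z t) (flowG hG t z).2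

lemma hasDerivAt_comp_geoPt (hG : IsCH G) {u : EE n → ℝ} (hu : ContDiff ℝ 1 u)
    (z : EE n × EE n) (t : ℝ) :
    HasDerivAt (fun t => u (geoPt hG z t)) (dw hG u z t) t :=
  (hu.differentiable one_ne_zero _).hasFDerivAt.comp_hasDerivAt t
    ((ContinuousLinearMap.fst ℝ (EE n) (EE n)).hasFDerivAt.comp_hasDerivAt t
      (hasDerivAt_flowG hG z t))

lemma continuous_dw (hG : IsCH G) {u : EE n → ℝ} (hu : ContDiff ℝ 1 u) (z : EE n × EE n) :
    Continuous (dw hG u z) :=
  ((hu.continuous_fderiv one_ne_zero).comp (continuous_geoPt hG z)).clm_apply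
    (continuous_snd.comp (continuous_flowAt hG z))

lemma dw_rev (hG : IsCH G) (u : EE n → ℝ) (z : EE n × EE n) (t : ℝ) :
    dw hG u (z.1, -z.2) t = -dw hG u z (-t) := by
  rw [dw, geoPt_rev, flow_rev]
  exact map_neg _ _

/-- the cosine along a geodesic -/
noncomputable def cw (hG : IsCH G) (u : EE n → ℝ) (z : EE n × EE n) (t : ℝ) : ℝ :=
  lineCos G u (flowG hG t z)

lemma lineCos_rev (hG : IsCH G) (u : EE n → ℝ) (z : EE n × EE n) :
    lineCos G u (z.1, -z.2) = -lineCos G u z := by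
  simp only [lineCos, gnorm_neg hG, map_neg, neg_div]

lemma cw_rev (hG : IsCH G) (u : EE n → ℝ) (z : EE n × EE n) (t : ℝ) :
    cw hG u (z.1, -z.2) t = -cw hG u z (-t) := by
  rw [cw, flow_rev, lineCos_rev hG]; rfl

lemma dw_eq (hG : IsCH G) (u : EE n → ℝ) (z : EE n × EE n) (t : ℝ) :
    dw hG u z t =
      cw hG u z t * (gnorm G z.1 z.2 * conorm G (geoPt hG z t) (fderiv ℝ u (geoPt hG z t))) := by
  simp only [cw, lineCos, flowG_speed hG]
  by_cases h : gnorm G z.1 z.2 * conorm G (geoPt hG z t) (fderiv ℝ u (geoPt hG z t)) = 0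
  · rw [h, mul_zero]
    refine abs_nonpos_iff.1 ((abs_apply_le hG (geoPt hG z t) _ _).trans_eq ?_)
    have hs : gnorm G (geoPt hG z t) (flowG hG t z).2 = gnorm G z.1 z.2 := flowG_speed hG z t
    rw [hs, mul_comm]; exact h
  · exact (div_mul_cancel₀ _ h).symm

lemma cw_mem_of_pos (hG : IsCH G) {u : EE n → ℝ} {z : EE n × EE n} {t : ℝ}
    (h : 0 < dw hG u z t) : cw hG u z t ∈ Ioc (0 : ℝ) 1 ∧
      0 < conorm G (geoPt hG z t) (fderiv ℝ u (geoPt hG z t)) := by
  have hd := h
  rw [dw_eq hG u z t] at hd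
  have h0 : 0 ≤ gnorm G z.1 z.2 * conorm G (geoPt hG z t) (fderiv ℝ u (geoPt hG z t)) :=
    mul_nonneg (gnorm_nonneg _ _) (conorm_nonneg _ _)
  have hc : 0 < cw hG u z t := pos_of_mul_pos_left hd h0
  exact ⟨⟨hc, (le_abs_self _).trans (abs_lineCos_le_one hG _ _)⟩,
    pos_of_mul_pos_right (pos_of_mul_pos_right hd hc.le) (gnorm_nonneg _ _)⟩

lemma continuousAt_cw (hG : IsCH G) {u : EE n → ℝ} (hu : ContDiff ℝ 1 u) {z : EE n × EE n}
    {t : ℝ} (hr : gnorm G z.1 z.2 ≠ 0)
    (hc : conorm G (geoPt hG z t) (fderiv ℝ u (geoPt hG z t)) ≠ 0) :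
    ContinuousAt (cw hG u z) t := by
  have : cw hG u z = fun t => dw hG u z t /
      (gnorm G z.1 z.2 * conorm G (geoPt hG z t) (fderiv ℝ u (geoPt hG z t))) := by
    ext r
    simp only [cw, lineCos, flowG_speed hG]
    rfl
  rw [this]
  exact (continuous_dw hG hu z).continuousAt.div
    (continuous_const.mul ((continuous_conorm hG).comp ((continuous_geoPt hG z).prodMk
      ((hu.continuous_fderiv one_ne_zero).comp (continuous_geoPt hG z))))).continuousAt
    (mul_ne_zero hr hc)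

end Vale.Agent.P219.Lines
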