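import Vale.Agent.P219.Lines.LineCalc
import Vale.Agent.P219.Lines.Band

/-!
# P219 module Lines: the segment of a geodesic inside `{u > s}` and the mass of a band crossing
-/

open scoped ENNReal
open MeasureTheory Set Filter Topology

namespace Vale.Agent.P219.Lines

variable {n : ℕ} {G : EE n → Form n}

lemma exists_bound (hG : IsCH G) {u : EE n → ℝ} (hc : HasCompactSupport u) {z : EE n × EE n}
    (hr : 0 < gnorm G z.1 z.2) : ∃ D : ℝ, ∀ t, D < |t| → u (geoPt hG z t) = 0 := by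
  obtain ⟨M, hM⟩ := hc.exists_bound_of_continuousOn
    ((continuous_gdist hG).comp (continuous_const (y := z.1) |>.prodMk continuous_id)).continuousOn
  refine ⟨M / gnorm G z.1 z.2, fun t ht => image_eq_zero_of_notMem_tsupport fun hmem => ?_⟩
  have h := hM _ hmem
  simp only [Function.comp_apply, id_eq, gdist_geoPt, Real.norm_eq_abs] at h
  rw [div_lt_iff₀ hr] at ht
  exact not_le.2 ht ((le_abs_self _).trans h)

lemma exists_exit (hG : IsCH G) {u : EE n → ℝ} (hu : ContDiff ℝ 1 u) (hc : HasCompactSupport u)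
    {s : ℝ} (hs : 0 < s) {z : EE n × EE n} (hr : 0 < gnorm G z.1 z.2) (hz : s < u z.1)
    (htr : ∀ t, u (geoPt hG z t) = s → dw hG u z t ≠ 0) :
    ∃ b, 0 < b ∧ u (geoPt hG z b) = s ∧ (∀ t ∈ Ico 0 b, s < u (geoPt hG z t)) ∧
      dw hG u z b < 0 := by
  have hw : Continuous fun t => u (geoPt hG z t) :=
    hu.continuous.comp (continuous_geoPt hG z)
  obtain ⟨D, hD⟩ := exists_bound hG hc hr
  set S := {t : ℝ | 0 ≤ t ∧ u (geoPt hG z t) ≤ s}
  have hne : S.Nonempty := ⟨max D 0 + 1, by positivity, by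
    rw [hD _ (by rw [abs_of_nonneg (by positivity)]; linarith [le_max_left D 0])]; exact hs.le⟩
  have hbdd : BddBelow S := ⟨0, fun _ h => h.1⟩
  have hmem : sInf S ∈ S := IsClosed.csInf_mem
    ((isClosed_le continuous_const continuous_id).inter (isClosed_le hw continuous_const))
    hne hbdd
  have h0 : geoPt hG z 0 = z.1 := congrArg Prod.fst (flowG_zero hG z)
  have hpos : 0 < sInf S := lt_of_le_of_ne hmem.1 fun h => by
    have := hmem.2
    rw [← h, h0] at this
    exact not_le.2 hz this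
  have hlt : ∀ t ∈ Ico 0 (sInf S), s < u (geoPt hG z t) := fun t ht =>
    not_le.1 fun h => not_le.2 ht.2 (csInf_le hbdd ⟨ht.1, h⟩)
  have heq : u (geoPt hG z (sInf S)) = s := hmem.2.antisymm <|
    ge_of_tendsto (hw.continuousWithinAt (s := Iio (sInf S)) (x := sInf S)) <| by
      filter_upwards [Ico_mem_nhdsLT hpos] with t ht using (hlt t ht).le
  refine ⟨sInf S, hpos, heq, hlt, lt_of_le_of_ne ?_ (htr _ heq)⟩
  have h := (hasDerivAt_iff_tendsto_slope.1 (hasDerivAt_comp_geoPt hG hu z (sInf S))).mono_left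
    (nhdsWithin_mono _ (show Iio (sInf S) ⊆ {sInf S}ᶜ from fun t ht => ne_of_lt ht))
  refine le_of_tendsto h ?_
  filter_upwards [Ico_mem_nhdsLT hpos] with t ht
  rw [slope_def_field, heq]
  exact div_nonpos_of_nonneg_of_nonpos (sub_nonneg.2 (hlt t ht).le) (sub_nonpos.2 ht.2.le)

lemma exists_segment (hG : IsCH G) {u : EE n → ℝ} (hu : ContDiff ℝ 1 u) (hc : HasCompactSupport u)
    {s : ℝ} (hs : 0 < s) {z : EE n × EE n} (hr : 0 < gnorm G z.1 z.2) (hz : s < u z.1)
    (htr : ∀ t, u (geoPt hG z t) = s → dw hG u z t ≠ 0) :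
    ∃ a b, a < 0 ∧ 0 < b ∧ u (geoPt hG z a) = s ∧ u (geoPt hG z b) = s ∧
      (∀ t ∈ Ioo a b, s < u (geoPt hG z t)) ∧ 0 < dw hG u z a ∧ dw hG u z b < 0 := by
  obtain ⟨b, hb, hbs, hbi, hbd⟩ := exists_exit hG hu hc hs hr hz htr
  obtain ⟨a, ha, has, hai, had⟩ := exists_exit hG hu hc hs (z := (z.1, -z.2))
    (by rwa [gnorm_neg hG])
    hz (fun t ht => by
      rw [dw_rev, ne_eq, neg_eq_zero]
      exact htr _ (by rwa [geoPt_rev] at ht))
  rw [geoPt_rev] at has
  rw [dw_rev, neg_lt_zero] at had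
  refine ⟨-a, b, neg_lt_zero.2 ha, hb, has, hbs, fun t ht => ?_, had, hbd⟩
  rcases le_or_gt 0 t with h | h
  · exact hbi t ⟨h, ht.2⟩
  · have h' := hai (-t) ⟨by linarith, by linarith [ht.1]⟩
    rwa [geoPt_rev, neg_neg] at h'

/-- a monotone crossing carries mass one -/
lemma mass_one {w dwt : ℝ → ℝ} (hw : ∀ t, HasDerivAt w (dwt t) t) (hdw : Continuous dwt)
    {κ s a b : ℝ} (hκ : 0 ≤ κ) (hab : a ≤ b) (hpos : ∀ t ∈ Icc a b, 0 ≤ dwt t)
    (ha : w a ≤ s) (hb : 2 ≤ κ * (w b - s)) :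
    ∫⁻ t in Ioo a b, ENNReal.ofReal (κ * stepD (κ * (w t - s) - 1) * dwt t) = 1 := by
  have hwc : Continuous w := continuous_iff_continuousAt.2 fun t => (hw t).continuousAt
  have hcont : Continuous fun t => κ * stepD (κ * (w t - s) - 1) * dwt t :=
    (continuous_const.mul (continuous_stepD.comp (by fun_prop))).mul hdw
  have hd : ∀ t, HasDerivAt (fun t => stepFun (κ * (w t - s) - 1))
      (κ * stepD (κ * (w t - s) - 1) * dwt t) t := fun t => by
    exact ((hasDerivAt_stepFun _).comp t ((((hw t).sub_const s).const_mul κ).sub_const 1))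
      |>.congr_deriv (by ring)
  rw [setLIntegral_congr Ioo_ae_eq_Icc,
    ← ofReal_integral_eq_lintegral_ofReal hcont.continuousOn.integrableOn_Icc
      (by filter_upwards [ae_restrict_mem measurableSet_Icc] with t ht
          exact mul_nonneg (mul_nonneg hκ (stepD_nonneg _)) (hpos t ht)),
    integral_Icc_eq_integral_Ioc, ← intervalIntegral.integral_of_le hab,
    intervalIntegral.integral_eq_sub_of_hasDerivAt (fun t _ => hd t)
      (hcont.intervalIntegrable _ _)]
  rw [stepFun_eq, stepFun_eq, min_eq_right (show (1 : ℝ) ≤ κ * (w b - s) - 1 by linarith),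
    max_eq_left (show min (κ * (w a - s) - 1) 1 ≤ (0 : ℝ) from
      (min_le_left _ _).trans (by nlinarith))]
  norm_num

/-- the same for a decreasing crossing -/
lemma mass_one' {w dwt : ℝ → ℝ} (hw : ∀ t, HasDerivAt w (dwt t) t) (hdw : Continuous dwt)
    {κ s a b : ℝ} (hκ : 0 ≤ κ) (hab : a ≤ b) (hneg : ∀ t ∈ Icc a b, dwt t ≤ 0)
    (hb : w b ≤ s) (ha : 2 ≤ κ * (w a - s)) :
    ∫⁻ t in Ioo a b, ENNReal.ofReal (κ * stepD (κ * (w t - s) - 1) * -dwt t) = 1 := by
  have h := mass_one (w := fun t => w (-t)) (dwt := fun t => -dwt (-t))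
    (fun t => by simpa [Function.comp_def] using (hw (-t)).comp t (hasDerivAt_neg t)) (by fun_prop) hκ (neg_le_neg hab)
    (fun t ht => neg_nonneg.2 (hneg _ ⟨by linarith [ht.2], by linarith [ht.1]⟩))
    (by simpa using hb) (by simpa using ha)
  rw [← h, ← (Measure.measurePreserving_neg (volume : Measure ℝ)).setLIntegral_comp_preimage_emb
    (MeasurableEquiv.neg ℝ).measurableEmbedding _ (Ioo a b)]
  simp

end Vale.Agent.P219.Lines
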