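import Vale.Agent.P219.Geo.Dist
import Vale.Agent.P219.Geo.Liouville
import Vale.Agent.P219.Lines.Moments
import Vale.Agent.P219.Lines.LKer

/-!
# P219 module Transport: pair integrals as integrals over the unit ball bundle

Phase space integrals are taken over `ballB G = {(x,v) | |v| ≤ 1}` with the Liouville measure.
A quantity carried by a pair of states `Φ_a z`, `Φ_b z` (`a < 0 < b`) is spread over `b - a`, a
quantity carried by one state over the time it stays in `U` afterwards.
-/

open scoped ContDiff ENNReal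
open MeasureTheory Set Filter Topology

namespace Vale.Agent.P219

variable {n : ℕ} {G : EE n → Form n}

/-- The unit ball bundle. -/
def ballB (G : EE n → Form n) : Set (EE n × EE n) := {q | gnorm G q.1 q.2 ≤ 1}

/-- The direction cosine of a state with respect to the differential of `v`. -/
noncomputable def lineCos (G : EE n → Form n) (v : EE n → ℝ) (z : EE n × EE n) : ℝ :=
  fderiv ℝ v z.1 z.2 / (gnorm G z.1 z.2 * conorm G z.1 (fderiv ℝ v z.1))

/-- The times up to which the forward geodesic stays in `U`. -/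
def fwdSet (hG : IsCH G) (U : Set (EE n)) (z : EE n × EE n) : Set ℝ :=
  {a | 0 < a ∧ ∀ b ∈ Icc 0 a, geoPt hG z b ∈ U}

/-- The boundary density. -/
noncomputable def bdryF (G : EE n → Form n) (ψ : ℝ → ℝ) (v : EE n → ℝ) (z : EE n × EE n) : ℝ≥0∞ :=
  ENNReal.ofReal (conorm G z.1 (fderiv ℝ v z.1) * ψ (max 0 (lineCos G v z)))

/-- The interior density. -/
noncomputable def intF (hG : IsCH G) (C : LKer n) (v : EE n → ℝ) (U : Set (EE n)) (R : ℝ)
    (z : EE n × EE n) : ℝ≥0∞ :=
  ∫⁻ l in fwdSet hG U z, ENNReal.ofReal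
    (conorm G z.1 (fderiv ℝ v z.1) * v (geoPt hG z l)
      * C.E (gnorm G z.1 z.2 * l / R) (lineCos G v z)
      * gnorm G z.1 z.2 * (gnorm G z.1 z.2 * l) ^ (n - 1))

/-- The pair density of the states at times `a < b` of the geodesic of `z`, spread over `b - a`. -/
noncomputable def pairK (hG : IsCH G) (C : LKer n) (v : EE n → ℝ) (R : ℝ) (z : EE n × EE n)
    (a b : ℝ) : ℝ :=
  let p := flowG hG a z
  let q := flowG hG b z
  conorm G p.1 (fderiv ℝ v p.1) * conorm G q.1 (fderiv ℝ v q.1)
    * C.Q (gnorm G z.1 z.2 * (b - a) / R) (lineCos G v p) (lineCos G v (q.1, -q.2))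
    * gnorm G z.1 z.2 * (gnorm G z.1 z.2 * (b - a)) ^ (n - 1) / (b - a)

/-- The pair integral seen from `z`. -/
noncomputable def pairG (hG : IsCH G) (C : LKer n) (v : EE n → ℝ) (R : ℝ)
    (z : EE n × EE n) : ℝ≥0∞ :=
  ∫⁻ a in Iio (0 : ℝ), ∫⁻ b in Ioi (0 : ℝ), ENNReal.ofReal (pairK hG C v R z a b)

/-- A state density spread over the forward time spent in `U`, seen from `z`. -/
noncomputable def spreadG (hG : IsCH G) (U : Set (EE n)) (F : EE n × EE n → ℝ≥0∞)
    (z : EE n × EE n) : ℝ≥0∞ :=
  ∫⁻ a in Iio (0 : ℝ), (fwdSet hG U (flowG hG a z)).indicator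
    (fun _ => F (flowG hG a z) / volume (fwdSet hG U (flowG hG a z))) (-a)

theorem measurableSet_ballB (hG : IsCH G) : MeasurableSet (ballB G) :=
  (isClosed_le (continuous_gnorm hG) continuous_const).measurableSet

instance instSFinitePhase : SFinite (phase G) := by unfold phase; infer_instance

instance instSFiniteRVol : SFinite (rVol G) := by unfold rVol; infer_instance

theorem gnorm_neg_vec (x v : EE n) : gnorm G x (-v) = gnorm G x v := by
  simp [gnorm]

theorem continuous_conorm_fderiv (hG : IsCH G) {v : EE n → ℝ} (hv : ContDiff ℝ 1 v) :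
    Continuous fun x => conorm G x (fderiv ℝ v x) :=
  (continuous_conorm hG).comp (continuous_id.prodMk (hv.continuous_fderiv one_ne_zero))

theorem measurable_lineCos (hG : IsCH G) {v : EE n → ℝ} (hv : ContDiff ℝ 1 v) :
    Measurable (lineCos G v) := by
  have h1 : Continuous fun z : EE n × EE n => fderiv ℝ v z.1 z.2 :=
    ((hv.continuous_fderiv one_ne_zero).comp continuous_fst).clm_apply continuous_snd
  exact h1.measurable.div ((continuous_gnorm hG).measurable.mul
    ((continuous_conorm_fderiv hG hv).comp continuous_fst).measurable)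

theorem abs_lineCos_le_one (hG : IsCH G) (v : EE n → ℝ) (z : EE n × EE n) :
    |lineCos G v z| ≤ 1 := by
  rw [lineCos, abs_div, abs_of_nonneg (mul_nonneg (gnorm_nonneg _ _) (conorm_nonneg _ _))]
  refine div_le_one_of_le₀ ?_ (mul_nonneg (gnorm_nonneg _ _) (conorm_nonneg _ _))
  rw [mul_comm]
  exact abs_apply_le hG _ _ _

theorem lineCos_mem (hG : IsCH G) (v : EE n → ℝ) (z : EE n × EE n) :
    lineCos G v z ∈ Icc (-1 : ℝ) 1 := abs_le.mp (abs_lineCos_le_one hG v z)

theorem lineCos_smul (hG : IsCH G) (v : EE n → ℝ) (x w : EE n) {l : ℝ} (hl : 0 < l) :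
    lineCos G v (x, l • w) = lineCos G v (x, w) := by
  simp only [lineCos, gnorm_smul hG, map_smul, smul_eq_mul, abs_of_pos hl]
  rw [mul_assoc, mul_div_mul_left _ _ hl.ne']

theorem Radial.continuous_F (A : Radial) : Continuous A.F :=
  continuous_iff_continuousAt.mpr fun t => (A.hasDeriv t).continuousAt

theorem Radial.continuous_K (A : Radial) (n : ℕ) :
    Continuous fun p : ℝ × ℝ => A.K n p.1 p.2 := by
  have h1 := A.cont_dF
  have h2 := A.cont_f
  have h3 := A.continuous_F
  unfold Radial.K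
  fun_prop

theorem Radial.exists_K_bound (A : Radial) (n : ℕ) :
    ∃ C, ∀ t c, 0 ≤ t → c ∈ Icc (-1 : ℝ) 1 → |A.K n t c| ≤ C := by
  obtain ⟨C, hC⟩ := A.bdd
  have hC0 : 0 ≤ C := le_trans (abs_nonneg _) (hC 0 le_rfl).1
  refine ⟨C * 1 + ((n : ℝ) + 2) * C + ((n : ℝ) + 1) * C, fun t c ht hc => ?_⟩
  obtain ⟨h1, h2, h3⟩ := hC t ht
  have hc1 : |c| ≤ 1 := abs_le.mpr hc
  have hc2 : c ^ 2 ≤ 1 := by nlinarith [hc.1, hc.2]
  have e1 : |A.dF t * (1 - c ^ 2)| ≤ C * 1 := by
    rw [abs_mul]
    exact mul_le_mul h2 (abs_le.mpr ⟨by nlinarith, by nlinarith⟩) (abs_nonneg _) hC0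
  have e2 : |((n : ℝ) - 2 + c ^ 2) * A.f t| ≤ ((n : ℝ) + 2) * C := by
    rw [abs_mul]
    exact mul_le_mul (abs_le.mpr ⟨by nlinarith, by nlinarith⟩) h3 (abs_nonneg _) (by positivity)
  have e3 : |((n : ℝ) - 1) * A.F t * c| ≤ ((n : ℝ) + 1) * C := by
    rw [abs_mul, abs_mul]
    have : |(n : ℝ) - 1| ≤ (n : ℝ) + 1 := by
      rw [abs_le]; constructor <;> linarith [Nat.cast_nonneg (α := ℝ) n]
    calc |(n : ℝ) - 1| * |A.F t| * |c| ≤ |(n : ℝ) - 1| * |A.F t| * 1 := by gcongr
      _ ≤ ((n : ℝ) + 1) * C := by rw [mul_one]; gcongr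
  unfold Radial.K
  refine (abs_sub _ _).trans (add_le_add ((abs_add_le _ _).trans (add_le_add e1 e2)) e3)

theorem Calib.Q_nonneg (C : Calib n) {t a b : ℝ} (ht : 0 ≤ t) (ha : a ∈ Icc (-1 : ℝ) 1)
    (hb : b ∈ Icc (-1 : ℝ) 1) : 0 ≤ C.Q t a b := C.bdry_nonneg t a b ht ha hb

theorem Calib.E_nonneg (C : Calib n) {t c : ℝ} (ht : 0 ≤ t) (hc : c ∈ Icc (-1 : ℝ) 1) :
    0 ≤ C.E t c := C.inner_nonneg t c ht hc

theorem Calib.continuous_Q (C : Calib n) :
    Continuous fun p : ℝ × ℝ × ℝ => C.Q p.1 p.2.1 p.2.2 := by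
  have h := C.bdry.continuous_K n
  have h1 : Continuous fun p : ℝ × ℝ × ℝ => C.bdry.K n p.1 p.2.1 :=
    h.comp (continuous_fst.prodMk (continuous_fst.comp continuous_snd))
  have h2 : Continuous fun p : ℝ × ℝ × ℝ => C.bdry.K n p.1 p.2.2 :=
    h.comp (continuous_fst.prodMk (continuous_snd.comp continuous_snd))
  exact continuous_const.add ((h1.add h2).div_const 2)

theorem Calib.continuous_E (C : Calib n) : Continuous fun p : ℝ × ℝ => C.E p.1 p.2 :=
  continuous_const.add (C.inner.continuous_K n)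

theorem Calib.exists_Q_bound (C : Calib n) :
    ∃ B, ∀ t a b, 0 ≤ t → a ∈ Icc (-1 : ℝ) 1 → b ∈ Icc (-1 : ℝ) 1 → |C.Q t a b| ≤ B := by
  obtain ⟨B, hB⟩ := C.bdry.exists_K_bound n
  refine ⟨|C.α| + B, fun t a b ht ha hb => ?_⟩
  have h1 := abs_le.mp (hB t a ht ha)
  have h2 := abs_le.mp (hB t b ht hb)
  refine (abs_add_le _ _).trans (add_le_add le_rfl (abs_le.mpr ⟨?_, ?_⟩)) <;> linarith

theorem Calib.exists_E_bound (C : Calib n) :
    ∃ B, ∀ t c, 0 ≤ t → c ∈ Icc (-1 : ℝ) 1 → |C.E t c| ≤ B := by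
  obtain ⟨B, hB⟩ := C.inner.exists_K_bound n
  exact ⟨|C.β| + B, fun t c ht hc => (abs_add_le _ _).trans (add_le_add le_rfl (hB t c ht hc))⟩

/-- The line kernels of a calibration. -/
noncomputable def Calib.lker (C : Calib n) : LKer n where
  Q := C.Q
  E := C.E
  φ := C.φ
  continuous_Q := C.continuous_Q
  continuous_E := C.continuous_E
  cont_φ := C.cont_φ
  Q_nonneg := C.Q_nonneg
  E_nonneg := C.E_nonneg
  φ_nonneg := C.φ_nonneg
  exists_Q_bound := C.exists_Q_bound
  exists_E_bound := C.exists_E_bound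
  cert := C.cert

theorem LKer.PI_nonneg (hG : IsCH G) (C : LKer n) (v : EE n → ℝ) {R : ℝ} (hR : 0 ≤ R) :
    0 ≤ LKer.PI hG C v R :=
  integral_nonneg fun x => integral_nonneg fun y =>
    mul_nonneg (mul_nonneg (conorm_nonneg _ _) (conorm_nonneg _ _))
      (C.Q_nonneg (div_nonneg (gnorm_nonneg _ _) hR)
        (abs_le.mp (abs_ucos_le_one hG v y x)) (abs_le.mp (abs_ucos_le_one hG v x y)))

theorem LKer.IPI_nonneg (hG : IsCH G) (C : LKer n) {v : EE n → ℝ} (hv : ∀ x, 0 ≤ v x) {R : ℝ}
    (hR : 0 ≤ R) : 0 ≤ LKer.IPI hG C v R :=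
  integral_nonneg fun x => integral_nonneg fun y =>
    mul_nonneg (mul_nonneg (conorm_nonneg _ _) (hv y))
      (C.E_nonneg (div_nonneg (gnorm_nonneg _ _) hR) (abs_le.mp (abs_ucos_le_one hG v y x)))

theorem gdist_nonneg' (hG : IsCH G) (x y : EE n) : 0 ≤ gdist hG x y := gnorm_nonneg _ _

theorem ucos_mem (hG : IsCH G) (v : EE n → ℝ) (y x : EE n) :
    ucos hG v y x ∈ Icc (-1 : ℝ) 1 := abs_le.mp (abs_ucos_le_one hG v y x)

theorem PI_nonneg (hG : IsCH G) (C : Calib n) (v : EE n → ℝ) {R : ℝ} (hR : 0 ≤ R) :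
    0 ≤ PI hG C v R :=
  integral_nonneg fun x => integral_nonneg fun y =>
    mul_nonneg (mul_nonneg (conorm_nonneg _ _) (conorm_nonneg _ _))
      (C.Q_nonneg (div_nonneg (gdist_nonneg' hG x y) hR) (ucos_mem hG v y x) (ucos_mem hG v x y))

theorem IPI_nonneg (hG : IsCH G) (C : Calib n) {v : EE n → ℝ} (hv : ∀ x, 0 ≤ v x) {R : ℝ}
    (hR : 0 ≤ R) : 0 ≤ IPI hG C v R :=
  integral_nonneg fun x => integral_nonneg fun y =>
    mul_nonneg (mul_nonneg (conorm_nonneg _ _) (hv y))
      (C.E_nonneg (div_nonneg (gdist_nonneg' hG x y) hR) (ucos_mem hG v y x))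

theorem TV_nonneg (v : EE n → ℝ) : 0 ≤ TV G v :=
  integral_nonneg fun _ => conorm_nonneg _ _

/-! ### Measurability along the flow -/

theorem measurable_flowG₂ (hG : IsCH G) :
    Measurable fun p : (EE n × EE n) × ℝ => flowG hG p.2 p.1 :=
  ((continuous_flowG hG).comp (continuous_snd.prodMk continuous_fst)).measurable

theorem measurable_rev : Measurable fun z : EE n × EE n => (z.1, -z.2) :=
  measurable_fst.prodMk measurable_snd.neg

/-- The states `(z, l)` with `l` in the forward set of `z`. -/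
def fwdRel (hG : IsCH G) (U : Set (EE n)) : Set ((EE n × EE n) × ℝ) :=
  {p | p.2 ∈ fwdSet hG U p.1}

theorem isOpen_fwdRel (hG : IsCH G) {U : Set (EE n)} (hU : IsOpen U) :
    IsOpen (fwdRel hG U) := by
  have hO : IsOpen {p : (EE n × EE n) × ℝ | ∀ c ∈ Icc (0 : ℝ) 1, geoPt hG p.1 (c * p.2) ∈ U} := by
    rw [isOpen_iff_eventually]
    intro p hp
    refine isCompact_Icc.eventually_forall_of_forall_eventually fun c hc => ?_
    have hcont : Continuous fun q : ((EE n × EE n) × ℝ) × ℝ => geoPt hG q.1.1 (q.2 * q.1.2) :=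
      continuous_fst.comp ((continuous_flowG hG).comp
        ((continuous_snd.mul (continuous_snd.comp continuous_fst)).prodMk
          (continuous_fst.comp continuous_fst)))
    exact (hcont.isOpen_preimage U hU).eventually_mem (x := (p, c)) (hp c hc)
  have he : fwdRel hG U = {p : (EE n × EE n) × ℝ | 0 < p.2} ∩
      {p | ∀ c ∈ Icc (0 : ℝ) 1, geoPt hG p.1 (c * p.2) ∈ U} := by
    ext ⟨z, a⟩
    constructor
    · rintro ⟨ha, h⟩
      exact ⟨ha, fun c hc =>
        h _ ⟨mul_nonneg hc.1 ha.le, mul_le_of_le_one_left ha.le hc.2⟩⟩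
    · rintro ⟨ha, h⟩
      refine ⟨ha, fun b hb => ?_⟩
      have := h (b / a) ⟨div_nonneg hb.1 ha.le, div_le_one_of_le₀ hb.2 ha.le⟩
      rwa [div_mul_cancel₀ b ha.ne'] at this
  rw [he]
  exact (isOpen_lt continuous_const continuous_snd).inter hO

theorem measurableSet_fwdSet (hG : IsCH G) {U : Set (EE n)} (hU : IsOpen U) (z : EE n × EE n) :
    MeasurableSet (fwdSet hG U z) :=
  ((isOpen_fwdRel hG hU).preimage (Continuous.prodMk_right z)).measurableSet

theorem measurable_volume_fwdSet (hG : IsCH G) {U : Set (EE n)} (hU : IsOpen U) :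
    Measurable fun z => volume (fwdSet hG U z) :=
  measurable_measure_prodMk_left (isOpen_fwdRel hG hU).measurableSet

theorem measurable_bdryF (hG : IsCH G) {ψ : ℝ → ℝ} (hψ : Continuous ψ) {v : EE n → ℝ}
    (hv : ContDiff ℝ 1 v) : Measurable (bdryF G ψ v) :=
  (((continuous_conorm_fderiv hG hv).comp continuous_fst).measurable.mul
    (hψ.measurable.comp (measurable_const.max (measurable_lineCos hG hv)))).ennreal_ofReal

theorem measurable_intF (hG : IsCH G) (C : LKer n) {v : EE n → ℝ} (hv : ContDiff ℝ 1 v)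
    {U : Set (EE n)} (hU : IsOpen U) (R : ℝ) : Measurable (intF hG C v U R) := by
  have hr : Measurable fun p : (EE n × EE n) × ℝ => gnorm G p.1.1 p.1.2 :=
    (continuous_gnorm hG).measurable.comp measurable_fst
  have h : Measurable fun p : (EE n × EE n) × ℝ => ENNReal.ofReal
      (conorm G p.1.1 (fderiv ℝ v p.1.1) * v (geoPt hG p.1 p.2)
        * C.E (gnorm G p.1.1 p.1.2 * p.2 / R) (lineCos G v p.1)
        * gnorm G p.1.1 p.1.2 * (gnorm G p.1.1 p.1.2 * p.2) ^ (n - 1)) := by
    refine ((((((continuous_conorm_fderiv hG hv).measurable.comp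
      (measurable_fst.comp measurable_fst)).mul
      (hv.continuous.measurable.comp (measurable_flowG₂ hG).fst)).mul
      (C.continuous_E.measurable.comp (((hr.mul measurable_snd).div_const R).prodMk
        ((measurable_lineCos hG hv).comp measurable_fst)))).mul hr).mul
      ((hr.mul measurable_snd).pow_const _)).ennreal_ofReal
  have h2 := (h.indicator (isOpen_fwdRel hG hU).measurableSet).lintegral_prod_right' (ν := volume)
  refine (congrArg Measurable (funext fun z => ?_)).mp h2
  rw [intF, ← lintegral_indicator (measurableSet_fwdSet hG hU z)]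
  rfl

theorem measurable_pairK (hG : IsCH G) (C : LKer n) {v : EE n → ℝ} (hv : ContDiff ℝ 1 v) (R : ℝ) :
    Measurable fun p : ((EE n × EE n) × ℝ) × ℝ => pairK hG C v R p.1.1 p.1.2 p.2 := by
  have hP : Measurable fun p : ((EE n × EE n) × ℝ) × ℝ => flowG hG p.1.2 p.1.1 :=
    (measurable_flowG₂ hG).comp measurable_fst
  have hQ : Measurable fun p : ((EE n × EE n) × ℝ) × ℝ => flowG hG p.2 p.1.1 :=
    (measurable_flowG₂ hG).comp (measurable_fst.fst.prodMk measurable_snd)
  have hd : Measurable fun p : ((EE n × EE n) × ℝ) × ℝ => p.2 - p.1.2 :=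
    measurable_snd.sub measurable_fst.snd
  have hr : Measurable fun p : ((EE n × EE n) × ℝ) × ℝ => gnorm G p.1.1.1 p.1.1.2 :=
    (continuous_gnorm hG).measurable.comp measurable_fst.fst
  have hh := (continuous_conorm_fderiv hG hv).measurable
  exact (((((hh.comp hP.fst).mul (hh.comp hQ.fst)).mul
    (C.continuous_Q.measurable.comp (((hr.mul hd).div_const R).prodMk
      (((measurable_lineCos hG hv).comp hP).prodMk
        ((measurable_lineCos hG hv).comp (hQ.fst.prodMk hQ.snd.neg)))))).mul hr).mul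
    ((hr.mul hd).pow_const _)).div hd

theorem measurable_pairG (hG : IsCH G) (C : LKer n) {v : EE n → ℝ} (hv : ContDiff ℝ 1 v) (R : ℝ) :
    Measurable (pairG hG C v R) := by
  have h := (measurable_pairK hG C hv R).ennreal_ofReal.lintegral_prod_right'
    (ν := volume.restrict (Ioi (0 : ℝ)))
  exact h.lintegral_prod_right' (ν := volume.restrict (Iio (0 : ℝ)))

theorem measurable_spread (hG : IsCH G) {U : Set (EE n)} (hU : IsOpen U)
    {F : EE n × EE n → ℝ≥0∞} (hF : Measurable F) :
    Measurable fun p : (EE n × EE n) × ℝ =>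
      (fwdSet hG U p.1).indicator (fun _ => F p.1 / volume (fwdSet hG U p.1)) (-p.2) := by
  have h : Measurable fun p : (EE n × EE n) × ℝ => F p.1 / volume (fwdSet hG U p.1) :=
    (hF.comp measurable_fst).div ((measurable_volume_fwdSet hG hU).comp measurable_fst)
  exact h.indicator ((isOpen_fwdRel hG hU).measurableSet.preimage
    (measurable_fst.prodMk measurable_snd.neg))

theorem measurable_spreadG (hG : IsCH G) {U : Set (EE n)} (hU : IsOpen U)
    {F : EE n × EE n → ℝ≥0∞} (hF : Measurable F) : Measurable (spreadG hG U F) := by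
  have h := (measurable_spread hG hU hF).comp
    ((measurable_flowG₂ hG).prodMk (measurable_snd (α := EE n × EE n) (β := ℝ)))
  exact h.lintegral_prod_right' (ν := volume.restrict (Iio (0 : ℝ)))

/-! ### Invariance -/

theorem flowG_preimage_ballB (hG : IsCH G) (a : ℝ) : flowG hG a ⁻¹' ballB G = ballB G := by
  ext z
  simp [ballB, flowG_speed]

/-- transport along the flow -/
theorem lintegral_flow (hG : IsCH G) (ν : Measure ℝ) [SFinite ν]
    {g : (EE n × EE n) × ℝ → ℝ≥0∞} (hg : Measurable g) :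
    ∫⁻ z in ballB G, ∫⁻ a, g (flowG hG a z, a) ∂ν ∂phase G
      = ∫⁻ z in ballB G, ∫⁻ a, g (z, a) ∂ν ∂phase G := by
  rw [lintegral_lintegral_swap (f := fun z a => g (flowG hG a z, a))
      (hg.comp ((measurable_flowG₂ hG).prodMk measurable_snd)).aemeasurable,
    lintegral_lintegral_swap (f := fun z a => g (z, a)) hg.aemeasurable]
  refine lintegral_congr fun a => ?_
  have h := (measurePreserving_flowG hG a).restrict_preimage (measurableSet_ballB hG)
  rw [flowG_preimage_ballB] at h
  exact h.lintegral_comp (hg.comp (measurable_id.prodMk measurable_const))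

theorem lintegral_phase (hG : IsCH G) {F : EE n × EE n → ℝ≥0∞} (hF : Measurable F) :
    ∫⁻ q, F q ∂phase G = ∫⁻ x, ENNReal.ofReal (dens G x) * (∫⁻ v, F (x, v)) ∂rVol G := by
  have hd := (continuous_dens hG).measurable
  have hd2 : Measurable fun q : EE n × EE n => ENNReal.ofReal (dens G q.1 ^ 2) :=
    ((hd.comp measurable_fst).pow_const 2).ennreal_ofReal
  rw [phase, rVol, lintegral_withDensity_eq_lintegral_mul _ hd2 hF,
    lintegral_withDensity_eq_lintegral_mul (volume : Measure (EE n)) hd.ennreal_ofReal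
      (g := fun x => ENNReal.ofReal (dens G x) * ∫⁻ v, F (x, v))
      (hd.ennreal_ofReal.mul hF.lintegral_prod_right'), Measure.volume_eq_prod,
    lintegral_prod _ (hd2.mul hF).aemeasurable]
  refine lintegral_congr fun x => ?_
  have hm : Measurable fun v => F (x, v) := hF.comp (measurable_const.prodMk measurable_id)
  simp only [Pi.mul_apply]
  rw [lintegral_const_mul _ hm, pow_two, ENNReal.ofReal_mul (dens_pos hG x).le, mul_assoc]

theorem lintegral_ball (hG : IsCH G) {F : EE n × EE n → ℝ≥0∞} (hF : Measurable F) :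
    ∫⁻ z in ballB G, F z ∂phase G
      = ∫⁻ x, ENNReal.ofReal (dens G x) * (∫⁻ v in {v | gnorm G x v ≤ 1}, F (x, v)) ∂rVol G := by
  rw [← lintegral_indicator (measurableSet_ballB hG),
    lintegral_phase hG (hF.indicator (measurableSet_ballB hG))]
  refine lintegral_congr fun x => ?_
  congr 1
  rw [← lintegral_indicator]
  · rfl
  · exact (isClosed_le ((continuous_gnorm hG).comp (Continuous.prodMk_right x))
      continuous_const).measurableSet

/-- reversal of time preserves the measure on the ball bundle -/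
theorem lintegral_ball_rev (hG : IsCH G) {F : EE n × EE n → ℝ≥0∞} (hF : Measurable F) :
    ∫⁻ z in ballB G, F (z.1, -z.2) ∂phase G = ∫⁻ z in ballB G, F z ∂phase G := by
  rw [lintegral_ball hG (F := fun z => F (z.1, -z.2)) (hF.comp measurable_rev),
    lintegral_ball hG hF]
  refine lintegral_congr fun x => ?_
  congr 1
  have hS : MeasurableSet {v | gnorm G x v ≤ 1} :=
    (isClosed_le ((continuous_gnorm hG).comp (Continuous.prodMk_right x))
      continuous_const).measurableSet
  have hm : Measurable fun v => F (x, v) := hF.comp (measurable_const.prodMk measurable_id)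
  have h := (Measure.measurePreserving_neg (volume : Measure (EE n))).restrict_preimage hS
  have he : Neg.neg ⁻¹' {v | gnorm G x v ≤ 1} = {v | gnorm G x v ≤ 1} := by
    ext v
    simp [gnorm_neg_vec]
  rw [he] at h
  exact h.lintegral_comp hm

/-- spreading does not increase a phase integral -/
theorem lintegral_spreadG_le (hG : IsCH G) {U : Set (EE n)} (hU : IsOpen U)
    {F : EE n × EE n → ℝ≥0∞} (hF : Measurable F) :
    ∫⁻ z in ballB G, spreadG hG U F z ∂phase G ≤ ∫⁻ z in ballB G, F z ∂phase G := by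
  refine le_of_eq_of_le
    (lintegral_flow hG (volume.restrict (Iio (0 : ℝ))) (measurable_spread hG hU hF)) ?_
  refine lintegral_mono fun z => ?_
  refine (setLIntegral_le_lintegral _ _).trans ?_
  rw [(Measure.measurePreserving_neg (volume : Measure ℝ)).lintegral_comp
    (f := fun b => (fwdSet hG U z).indicator (fun _ => F z / volume (fwdSet hG U z)) b)
    (measurable_const.indicator (measurableSet_fwdSet hG hU z)),
    lintegral_indicator_const (measurableSet_fwdSet hG hU z)]
  rw [mul_comm]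
  exact ENNReal.mul_div_le

/-! ### Radial coordinates -/

theorem lintegral_inv_pow_Ioi (hn : n ≠ 0) {c : ℝ} (hc : 0 < c) :
    ∫⁻ l in Ioi c, ENNReal.ofReal ((l ^ (n + 1))⁻¹) = ENNReal.ofReal (((n : ℝ) * c ^ n)⁻¹) := by
  have hn' : (0 : ℝ) < n := by exact_mod_cast Nat.pos_of_ne_zero hn
  have hlt : -((n : ℝ) + 1) < -1 := by linarith
  have he : EqOn (fun l : ℝ => (l ^ (n + 1))⁻¹) (fun l => l ^ (-((n : ℝ) + 1))) (Ioi c) := by
    intro l hl
    have hl0 : (0 : ℝ) ≤ l := (hc.trans hl).le
    simp only [Real.rpow_neg hl0]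
    rw [← Real.rpow_natCast l (n + 1)]
    push_cast
    rfl
  have hi : IntegrableOn (fun l : ℝ => (l ^ (n + 1))⁻¹) (Ioi c) :=
    (integrableOn_Ioi_rpow_of_lt hlt hc).congr_fun he.symm measurableSet_Ioi
  rw [← ofReal_integral_eq_lintegral_ofReal hi
    ((ae_restrict_mem measurableSet_Ioi).mono fun l hl => by
      have : (0 : ℝ) < l := hc.trans hl
      positivity),
    setIntegral_congr_fun measurableSet_Ioi he, integral_Ioi_rpow_of_lt hlt hc,
    show -((n : ℝ) + 1) + 1 = -(n : ℝ) by ring, Real.rpow_neg hc.le, Real.rpow_natCast]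
  congr 1
  field_simp

/-- polar coordinates without spheres -/
theorem lintegral_eq_ball_radial (hn : n ≠ 0) {N : EE n → ℝ} (hN : Continuous N)
    (hsm : ∀ c v, N (c • v) = |c| * N v) (hN0 : ∀ v, 0 ≤ N v) (hz : ∀ v, N v = 0 → v = 0)
    {A : EE n → ℝ≥0∞} (hA : Measurable A) :
    (n : ℝ≥0∞) * ∫⁻ w in {w | N w ≤ 1}, ∫⁻ l in Ioi (0 : ℝ),
      A (l • w) * ENNReal.ofReal (N w * (N w * l) ^ (n - 1)) = ∫⁻ v, A v := by
  have : NeZero n := ⟨hn⟩
  obtain ⟨m, rfl⟩ : ∃ m, n = m + 1 := ⟨n - 1, by omega⟩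
  set g : ℝ → EE (m + 1) → ℝ≥0∞ := fun l v => {v | N v ≤ l}.indicator
    (fun v => A v * ENNReal.ofReal (N v ^ (m + 1) / l)) v with hg
  have hgm : Measurable (Function.uncurry g) := by
    refine Measurable.indicator (s := {p : ℝ × EE (m + 1) | N p.2 ≤ p.1})
      (f := fun p : ℝ × EE (m + 1) => A p.2 * ENNReal.ofReal (N p.2 ^ (m + 1) / p.1)) ?_ ?_
    · exact (hA.comp measurable_snd).mul
        (((hN.measurable.comp measurable_snd).pow_const _).div measurable_fst).ennreal_ofReal
    · exact (isClosed_le (hN.comp continuous_snd) continuous_fst).measurableSet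
  have hker : Measurable fun p : EE (m + 1) × ℝ => A (p.2 • p.1) *
      ENNReal.ofReal (N p.1 * (N p.1 * p.2) ^ (m + 1 - 1)) :=
    (hA.comp (measurable_snd.smul measurable_fst)).mul
      ((hN.measurable.comp measurable_fst).mul
        (((hN.measurable.comp measurable_fst).mul measurable_snd).pow_const _)).ennreal_ofReal
  rw [lintegral_lintegral_swap hker.aemeasurable]
  have step : ∀ l ∈ Ioi (0 : ℝ), (∫⁻ w in {w | N w ≤ 1}, A (l • w) *
      ENNReal.ofReal (N w * (N w * l) ^ (m + 1 - 1)))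
        = ∫⁻ v, ENNReal.ofReal ((l ^ (m + 1))⁻¹) * g l v := by
    intro l (hl : 0 < l)
    rw [← lintegral_indicator (isClosed_le hN continuous_const).measurableSet]
    have hgl : Measurable (g l) := hgm.of_uncurry_left
    have h1 : ∫⁻ w, g l (l • w) = ENNReal.ofReal ((l ^ (m + 1))⁻¹) * ∫⁻ v, g l v := by
      rw [← lintegral_map hgl (measurable_const_smul l), Measure.map_addHaar_smul volume hl.ne',
        lintegral_smul_measure, finrank_euclideanSpace, Fintype.card_fin,
        abs_of_pos (inv_pos.2 (pow_pos hl _))]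
      rfl
    rw [lintegral_const_mul _ hgl, ← h1]
    refine lintegral_congr fun w => ?_
    have hiff : N (l • w) ≤ l ↔ N w ≤ 1 := by
      rw [hsm, abs_of_pos hl, mul_le_iff_le_one_right hl]
    simp only [hg, Set.indicator, mem_ofPred_eq, hiff]
    split_ifs
    · rw [hsm, abs_of_pos hl, Nat.add_sub_cancel]
      congr 2
      field_simp
      ring
    · rfl
  rw [setLIntegral_congr_fun measurableSet_Ioi step, lintegral_lintegral_swap
      (((measurable_fst.pow_const _).inv).ennreal_ofReal.mul hgm).aemeasurable,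
    ← lintegral_const_mul' _ _ (ENNReal.natCast_ne_top _)]
  refine lintegral_congr_ae ?_
  filter_upwards [compl_mem_ae_iff.2 (measure_singleton (0 : EE (m + 1)))] with v hv
  have hc : 0 < N v := lt_of_le_of_ne (hN0 v) fun h => hv (hz v h.symm)
  have e : ∀ l ∈ Ioi (0 : ℝ), ENNReal.ofReal ((l ^ (m + 1))⁻¹) * g l v
      = (Ici (N v)).indicator (fun l => A v * ENNReal.ofReal (N v ^ (m + 1)) *
          ENNReal.ofReal ((l ^ (m + 1 + 1))⁻¹)) l := by
    intro l (hl : 0 < l)
    by_cases h : N v ≤ l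
    · rw [hg]
      simp only [indicator_of_mem (show v ∈ {v | N v ≤ l} from h),
        indicator_of_mem (show l ∈ Ici (N v) from h)]
      rw [mul_left_comm, mul_assoc, ← ENNReal.ofReal_mul (by positivity),
        ← ENNReal.ofReal_mul (by positivity)]
      congr 2
      field_simp
      ring
    · rw [hg]
      simp only [indicator_of_notMem (show v ∉ {v | N v ≤ l} from h),
        indicator_of_notMem (show l ∉ Ici (N v) from h), mul_zero]
  rw [setLIntegral_congr_fun measurableSet_Ioi e, setLIntegral_indicator measurableSet_Ici,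
    inter_eq_left.2 (fun l (hl : l ∈ Ici (N v)) => show l ∈ Ioi (0 : ℝ) from hc.trans_le hl), setLIntegral_congr Ioi_ae_eq_Ici.symm,
    lintegral_const_mul _ (f := fun l : ℝ => ENNReal.ofReal ((l ^ (m + 1 + 1))⁻¹))
      ((measurable_id.pow_const _).inv).ennreal_ofReal,
    lintegral_inv_pow_Ioi hn hc, ← ENNReal.ofReal_natCast, mul_left_comm, mul_assoc,
    ← ENNReal.ofReal_mul (by positivity), ← ENNReal.ofReal_mul (by positivity)]
  convert mul_one (A v) using 2
  rw [← ENNReal.ofReal_one]
  congr 1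
  field_simp

theorem lintegral_phase_radial (hn : n ≠ 0) (hG : IsCH G) {A : EE n × EE n → ℝ≥0∞}
    (hA : Measurable A) :
    (n : ℝ≥0∞) * ∫⁻ z in ballB G, (∫⁻ l in Ioi (0 : ℝ), A (z.1, l • z.2) *
      ENNReal.ofReal (gnorm G z.1 z.2 * (gnorm G z.1 z.2 * l) ^ (n - 1))) ∂phase G
      = ∫⁻ q, A q ∂phase G := by
  have hr : Measurable fun p : (EE n × EE n) × ℝ => gnorm G p.1.1 p.1.2 :=
    (continuous_gnorm hG).measurable.comp measurable_fst
  have hk : Measurable fun p : (EE n × EE n) × ℝ => A (p.1.1, p.2 • p.1.2) *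
      ENNReal.ofReal (gnorm G p.1.1 p.1.2 * (gnorm G p.1.1 p.1.2 * p.2) ^ (n - 1)) :=
    (hA.comp (measurable_fst.fst.prodMk (measurable_snd.smul measurable_fst.snd))).mul
      (hr.mul ((hr.mul measurable_snd).pow_const _)).ennreal_ofReal
  rw [lintegral_ball hG hk.lintegral_prod_right', lintegral_phase hG hA,
    ← lintegral_const_mul' _ _ (ENNReal.natCast_ne_top _)]
  refine lintegral_congr fun x => ?_
  rw [mul_left_comm]
  congr 1
  exact lintegral_eq_ball_radial hn ((continuous_gnorm hG).comp (Continuous.prodMk_right x))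
    (fun c v => gnorm_smul hG x c v) (fun v => gnorm_nonneg x v)
    (fun v h => (gnorm_eq_zero hG).1 h) (hA.comp (measurable_const.prodMk measurable_id))

/-- a double integral dominates its restriction to `exp_x`-coordinates -/
theorem lintegral_phase_expG_le (hG : IsCH G) {f : EE n → EE n → ℝ}
    (hf : Measurable (Function.uncurry f)) (hf0 : ∀ x y, 0 ≤ f x y) {B : ℝ}
    (hB : ∀ x y, f x y ≤ B) {K : Set (EE n)} (hK : IsCompact K)
    (hKx : ∀ x y, x ∉ K → f x y = 0) (hKy : ∀ x y, y ∉ K → f x y = 0) :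
    ∫⁻ q, ENNReal.ofReal (f q.1 (expG hG q.1 q.2)) ∂phase G
      ≤ ENNReal.ofReal (∫ x, ∫ y, f x y ∂rVol G ∂rVol G) := by
  have := isFiniteMeasureOnCompacts_rVol hG
  have hB0 : ∀ x, Integrable (f x) (rVol G) := fun x => by
    refine Integrable.mono' ((integrableOn_const (C := B)
      (ne_of_lt hK.measure_lt_top)).integrable_indicator hK.measurableSet)
      hf.of_uncurry_left.aestronglyMeasurable (Eventually.of_forall fun y => ?_)
    by_cases hy : y ∈ K
    · rw [indicator_of_mem hy, Real.norm_eq_abs, abs_of_nonneg (hf0 x y)]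
      exact hB x y
    · simp [indicator_of_notMem hy, hKy x y hy]
  have hout : Integrable (fun x => ∫ y, f x y ∂rVol G) (rVol G) := by
    refine Integrable.mono' ((integrableOn_const (C := ∫ y, K.indicator (fun _ => B) y ∂rVol G)
      (ne_of_lt hK.measure_lt_top)).integrable_indicator hK.measurableSet)
      hf.stronglyMeasurable.integral_prod_right'.aestronglyMeasurable
      (Eventually.of_forall fun x => ?_)
    by_cases hx : x ∈ K
    · rw [indicator_of_mem hx, Real.norm_eq_abs, abs_of_nonneg (integral_nonneg (hf0 x))]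
      refine integral_mono (hB0 x) ((integrableOn_const (C := B)
        (ne_of_lt hK.measure_lt_top)).integrable_indicator hK.measurableSet) fun y => ?_
      by_cases hy : y ∈ K
      · simpa [indicator_of_mem hy] using hB x y
      · simp [indicator_of_notMem hy, hKy x y hy]
    · simp [indicator_of_notMem hx, hKx x _ hx]
  rw [ofReal_integral_eq_lintegral_ofReal hout
      (Eventually.of_forall fun x => integral_nonneg (hf0 x)),
    lintegral_phase hG (F := fun q => ENNReal.ofReal (f q.1 (expG hG q.1 q.2)))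
      (hf.comp (measurable_fst.prodMk (continuous_expG hG).measurable)).ennreal_ofReal]
  refine lintegral_mono fun x => ?_
  rw [ofReal_integral_eq_lintegral_ofReal (hB0 x) (Eventually.of_forall (hf0 x)),
    lintegral_rVol_expG hG x, ← lintegral_const_mul' _ _ ENNReal.ofReal_ne_top]
  refine lintegral_mono fun v => ?_
  rw [mul_comm]
  exact mul_le_mul_right (ENNReal.ofReal_le_ofReal
    (le_mul_of_one_le_left (dens_pos hG x).le (one_le_jac hG x v))) _

theorem ucos_expG (hG : IsCH G) (v : EE n → ℝ) (x w : EE n) :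
    ucos hG v (expG hG x w) x = lineCos G v (x, w) := by
  rw [ucos, logG_expG, gdist_expG, lineCos]

theorem logG_expG_back (hG : IsCH G) (x w : EE n) :
    logG hG (expG hG x w) x = -(flowG hG 1 (x, w)).2 := by
  have h := flowG_logG hG x (expG hG x w)
  rw [logG_expG] at h
  rw [h]
  simp

theorem ucos_expG_back (hG : IsCH G) (v : EE n → ℝ) (x w : EE n) :
    ucos hG v x (expG hG x w)
      = lineCos G v ((flowG hG 1 (x, w)).1, -(flowG hG 1 (x, w)).2) := by
  rw [ucos, logG_expG_back, gdist_comm, gdist_expG, lineCos, gnorm_neg_vec,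
    flowG_speed hG (x, w) 1]
  rfl

theorem geoPt_eq_expG' (hG : IsCH G) (z : EE n × EE n) (l : ℝ) :
    expG hG z.1 (l • z.2) = geoPt hG z l :=
  (geoPt_eq_expG hG z.1 z.2 l).symm

theorem exists_kernel_support (hG : IsCH G) {o : EE n} {R₀ : ℝ} {v : EE n → ℝ}
    (hv : Adm hG o R₀ v) :
    IsCompact (tsupport v) ∧ (∀ x, x ∉ tsupport v → conorm G x (fderiv ℝ v x) = 0) ∧
      ∃ H, 0 ≤ H ∧ ∀ x, conorm G x (fderiv ℝ v x) ≤ H := by
  have hc : IsCompact (tsupport v) :=
    (isCompact_gball hG o R₀).of_isClosed_subset (isClosed_tsupport v) hv.supp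
  have h0 : ∀ x, x ∉ tsupport v → conorm G x (fderiv ℝ v x) = 0 := fun x hx => by
    rw [fderiv_of_notMem_tsupport ℝ hx]
    simp [conorm]
  obtain ⟨H, hH⟩ :=
    hc.exists_bound_of_continuousOn (continuous_conorm_fderiv hG hv.smooth).continuousOn
  refine ⟨hc, h0, max H 0, le_max_right _ _, fun x => ?_⟩
  by_cases hx : x ∈ tsupport v
  · exact (le_abs_self _).trans ((hH x hx).trans (le_max_left _ _))
  · rw [h0 x hx]; exact le_max_right _ _

theorem lintegral_lintegral_sub {f : ℝ → ℝ≥0∞} (hf : Measurable f) :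
    ∫⁻ a in Iio (0 : ℝ), ∫⁻ b in Ioi (0 : ℝ), f (b - a)
      = ∫⁻ l in Ioi (0 : ℝ), ENNReal.ofReal l * f l := by
  set T : Set (ℝ × ℝ) := {p | p.1 < 0 ∧ 0 < p.1 + p.2}
  have hT : MeasurableSet T :=
    (measurableSet_lt measurable_fst measurable_const).inter
      (measurableSet_lt measurable_const (measurable_fst.add measurable_snd))
  have e : ∀ a ∈ Iio (0 : ℝ), (∫⁻ b in Ioi (0 : ℝ), f (b - a))
      = ∫⁻ l, T.indicator (fun p => f p.2) (a, l) := by
    intro a (ha : a < 0)
    rw [← lintegral_indicator measurableSet_Ioi,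
      ← lintegral_add_right_eq_self _ a]
    refine lintegral_congr fun l => ?_
    simp [Set.indicator, T, ha, add_comm l a]
  rw [setLIntegral_congr_fun measurableSet_Iio e,
    lintegral_lintegral_swap (f := fun a l => T.indicator (fun p => f p.2) (a, l))
      ((hf.comp measurable_snd).indicator hT).aemeasurable,
    ← lintegral_indicator measurableSet_Ioi]
  refine lintegral_congr fun l => ?_
  have h2 : (fun a => T.indicator (fun p => f p.2) (a, l))
      = (Ioo (-l) 0).indicator fun _ => f l := by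
    funext a
    by_cases h : a < 0 <;> simp [Set.indicator, T, h, neg_lt_iff_pos_add', add_comm]
  rw [h2, setLIntegral_indicator measurableSet_Ioo, inter_eq_left.2 Ioo_subset_Iio_self,
    setLIntegral_const, Real.volume_Ioo, sub_neg_eq_add, zero_add, mul_comm]
  by_cases hl : 0 < l
  · rw [indicator_of_mem (show l ∈ Ioi (0 : ℝ) from hl)]
  · rw [indicator_of_notMem (show l ∉ Ioi (0 : ℝ) from hl), ENNReal.ofReal_of_nonpos (by linarith)]
    simp

theorem lintegral_pairG_le (hn : 2 ≤ n) (hG : IsCH G) (C : LKer n) {o : EE n} {R₀ R : ℝ}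
    {v : EE n → ℝ} (hv : Adm hG o R₀ v) (hR : 0 < R) :
    ∫⁻ z in ballB G, pairG hG C v R z ∂phase G ≤ ENNReal.ofReal (LKer.PI hG C v R / n) := by
  set f : EE n → EE n → ℝ := fun x y => conorm G x (fderiv ℝ v x) * conorm G y (fderiv ℝ v y) *
    C.Q (gdist hG x y / R) (ucos hG v y x) (ucos hG v x y)
  set A : EE n × EE n → ℝ≥0∞ := fun q => ENNReal.ofReal (f q.1 (expG hG q.1 q.2))
  have hh := (continuous_conorm_fderiv hG hv.smooth).measurable
  have hu := measurable_ucos hG hv.smooth
  have hf : Measurable (Function.uncurry f) :=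
    ((hh.comp measurable_fst).mul (hh.comp measurable_snd)).mul
      (C.continuous_Q.measurable.comp (((continuous_gdist hG).measurable.div_const R).prodMk
        ((hu.comp (measurable_snd.prodMk measurable_fst)).prodMk hu)))
  have hA : Measurable A :=
    (hf.comp (measurable_fst.prodMk (continuous_expG hG).measurable)).ennreal_ofReal
  have hQ0 : ∀ x y, 0 ≤ C.Q (gdist hG x y / R) (ucos hG v y x) (ucos hG v x y) := fun x y =>
    C.Q_nonneg (div_nonneg (gdist_nonneg' hG x y) hR.le) (ucos_mem hG v y x) (ucos_mem hG v x y)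
  obtain ⟨hc, hs0, H, hH0, hH⟩ := exists_kernel_support hG hv
  obtain ⟨B, hB⟩ := C.exists_Q_bound
  have hfB : ∀ x y, f x y ≤ H * H * B := fun x y =>
    mul_le_mul (mul_le_mul (hH x) (hH y) (conorm_nonneg _ _) hH0)
      ((le_abs_self _).trans (hB _ _ _ (div_nonneg (gdist_nonneg' hG x y) hR.le)
        (ucos_mem hG v y x) (ucos_mem hG v x y))) (hQ0 x y) (mul_nonneg hH0 hH0)
  have key : ∫⁻ q, A q ∂phase G ≤ ENNReal.ofReal (LKer.PI hG C v R) :=
    lintegral_phase_expG_le hG hf
      (fun x y => mul_nonneg (mul_nonneg (conorm_nonneg _ _) (conorm_nonneg _ _)) (hQ0 x y))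
      hfB hc (fun x y hx => by simp [f, hs0 x hx]) (fun x y hy => by simp [f, hs0 y hy])
  rw [← lintegral_phase_radial (by omega) hG hA] at key
  have hnR : (0 : ℝ) < n := by exact_mod_cast (show 0 < n by omega)
  rw [ENNReal.ofReal_div_of_pos hnR, ENNReal.ofReal_natCast, ENNReal.le_div_iff_mul_le
    (Or.inl (by exact_mod_cast (show n ≠ 0 by omega))) (Or.inl (ENNReal.natCast_ne_top _)),
    mul_comm]
  refine le_of_eq_of_le ?_ key
  congr 1
  set g : (EE n × EE n) × ℝ → ℝ≥0∞ := fun p => ∫⁻ b in Ioi (0 : ℝ),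
    A (p.1.1, (b - p.2) • p.1.2) * ENNReal.ofReal
      (gnorm G p.1.1 p.1.2 * (gnorm G p.1.1 p.1.2 * (b - p.2)) ^ (n - 1)) /
        ENNReal.ofReal (b - p.2)
  have hgm : Measurable g := by
    have hr : Measurable fun p : ((EE n × EE n) × ℝ) × ℝ => gnorm G p.1.1.1 p.1.1.2 :=
      (continuous_gnorm hG).measurable.comp measurable_fst.fst
    have hd : Measurable fun p : ((EE n × EE n) × ℝ) × ℝ => p.2 - p.1.2 :=
      measurable_snd.sub measurable_fst.snd
    exact (((hA.comp (measurable_fst.fst.fst.prodMk (hd.smul measurable_fst.fst.snd))).mul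
      (hr.mul ((hr.mul hd).pow_const _)).ennreal_ofReal).div
      hd.ennreal_ofReal).lintegral_prod_right' (ν := volume.restrict (Ioi (0 : ℝ)))
  have h1 : ∀ z, pairG hG C v R z = ∫⁻ a in Iio (0 : ℝ), g (flowG hG a z, a) := by
    intro z
    refine setLIntegral_congr_fun measurableSet_Iio fun a (ha : a < 0) => ?_
    refine setLIntegral_congr_fun measurableSet_Ioi fun b (hb : 0 < b) => ?_
    have hl : 0 < b - a := by linarith
    have hq : flowG hG (b - a) (flowG hG a z) = flowG hG b z := by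
      rw [← flowG_add, sub_add_cancel]
    have hsm : flowG hG 1 ((flowG hG a z).1, (b - a) • (flowG hG a z).2)
        = ((flowG hG b z).1, (b - a) • (flowG hG b z).2) := by
      rw [flowG_smul, mul_one, Prod.mk.eta, hq]
    have he : expG hG (flowG hG a z).1 ((b - a) • (flowG hG a z).2) = (flowG hG b z).1 :=
      (congrArg Prod.fst hsm).trans rfl
    have hc1 : ucos hG v (flowG hG b z).1 (flowG hG a z).1 = lineCos G v (flowG hG a z) := by
      rw [← he, ucos_expG, lineCos_smul hG v _ _ hl]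
    have hc2 : ucos hG v (flowG hG a z).1 (flowG hG b z).1
        = lineCos G v ((flowG hG b z).1, -(flowG hG b z).2) := by
      rw [← he, ucos_expG_back, hsm, ← smul_neg, lineCos_smul hG v _ _ hl, he]
    have hd : gdist hG (flowG hG a z).1 (flowG hG b z).1 = gnorm G z.1 z.2 * (b - a) := by
      rw [← he, gdist_expG, gnorm_smul hG, flowG_speed, abs_of_pos hl, mul_comm]
    have hf0 : 0 ≤ f (flowG hG a z).1 (flowG hG b z).1 :=
      mul_nonneg (mul_nonneg (conorm_nonneg _ _) (conorm_nonneg _ _)) (hQ0 _ _)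
    show ENNReal.ofReal (pairK hG C v R z a b) = ENNReal.ofReal _ * _ / _
    rw [he, flowG_speed, ← ENNReal.ofReal_mul hf0, ← ENNReal.ofReal_div_of_pos hl]
    congr 1
    simp only [f, pairK, hc1, hc2, hd]
    ring
  rw [lintegral_congr h1, lintegral_flow hG _ hgm]
  refine lintegral_congr fun z => ?_
  have hm : Measurable fun l : ℝ => A (z.1, l • z.2) * ENNReal.ofReal
      (gnorm G z.1 z.2 * (gnorm G z.1 z.2 * l) ^ (n - 1)) / ENNReal.ofReal l :=
    ((hA.comp (measurable_const.prodMk (measurable_id.smul measurable_const))).mul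
      (((measurable_id.const_mul _).pow_const _).const_mul _).ennreal_ofReal).div
      measurable_id.ennreal_ofReal
  refine (lintegral_lintegral_sub hm).trans ?_
  refine setLIntegral_congr_fun measurableSet_Ioi fun l (hl : 0 < l) => ?_
  exact ENNReal.mul_div_cancel (by simpa using hl) ENNReal.ofReal_ne_top

theorem lintegral_intF_le (hn : 2 ≤ n) (hG : IsCH G) (C : LKer n) {o : EE n} {R₀ R : ℝ}
    {v : EE n → ℝ} (hv : Adm hG o R₀ v) (hR : 0 < R) {U : Set (EE n)} (hU : IsOpen U) :
    ∫⁻ z in ballB G, intF hG C v U R z ∂phase G ≤ ENNReal.ofReal (LKer.IPI hG C v R / n) := by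
  set f : EE n → EE n → ℝ := fun x y =>
    conorm G x (fderiv ℝ v x) * v y * C.E (gdist hG x y / R) (ucos hG v y x)
  set A : EE n × EE n → ℝ≥0∞ := fun q => ENNReal.ofReal (f q.1 (expG hG q.1 q.2))
  have hh := (continuous_conorm_fderiv hG hv.smooth).measurable
  have hu := measurable_ucos hG hv.smooth
  have hf : Measurable (Function.uncurry f) :=
    ((hh.comp measurable_fst).mul (hv.smooth.continuous.measurable.comp measurable_snd)).mul
      (C.continuous_E.measurable.comp (((continuous_gdist hG).measurable.div_const R).prodMk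
        (hu.comp (measurable_snd.prodMk measurable_fst))))
  have hA : Measurable A :=
    (hf.comp (measurable_fst.prodMk (continuous_expG hG).measurable)).ennreal_ofReal
  have hE0 : ∀ x y, 0 ≤ C.E (gdist hG x y / R) (ucos hG v y x) := fun x y =>
    C.E_nonneg (div_nonneg (gdist_nonneg' hG x y) hR.le) (ucos_mem hG v y x)
  have hf0 : ∀ x y, 0 ≤ f x y := fun x y =>
    mul_nonneg (mul_nonneg (conorm_nonneg _ _) (hv.nonneg y)) (hE0 x y)
  obtain ⟨hc, hs0, H, hH0, hH⟩ := exists_kernel_support hG hv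
  obtain ⟨B, hB⟩ := C.exists_E_bound
  have hfB : ∀ x y, f x y ≤ H * 1 * B := fun x y =>
    mul_le_mul (mul_le_mul (hH x) (hv.le_one y) (hv.nonneg y) hH0)
      ((le_abs_self _).trans (hB _ _ (div_nonneg (gdist_nonneg' hG x y) hR.le)
        (ucos_mem hG v y x))) (hE0 x y) (mul_nonneg hH0 zero_le_one)
  have key : ∫⁻ q, A q ∂phase G ≤ ENNReal.ofReal (LKer.IPI hG C v R) :=
    lintegral_phase_expG_le hG hf hf0 hfB hc (fun x y hx => by simp [f, hs0 x hx])
      (fun x y hy => by simp [f, image_eq_zero_of_notMem_tsupport hy])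
  rw [← lintegral_phase_radial (by omega) hG hA] at key
  have hnR : (0 : ℝ) < n := by exact_mod_cast (show 0 < n by omega)
  rw [ENNReal.ofReal_div_of_pos hnR, ENNReal.ofReal_natCast, ENNReal.le_div_iff_mul_le
    (Or.inl (by exact_mod_cast (show n ≠ 0 by omega))) (Or.inl (ENNReal.natCast_ne_top _)),
    mul_comm]
  refine le_trans ?_ key
  refine mul_le_mul_right (lintegral_mono fun z => ?_) _
  refine (setLIntegral_mono' (measurableSet_fwdSet hG hU z) fun l hl => ?_).trans
    (lintegral_mono_set fun l (hl : l ∈ fwdSet hG U z) => hl.1)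
  obtain ⟨hl, -⟩ := hl
  simp only [A]
  rw [← ENNReal.ofReal_mul (hf0 _ _)]
  refine le_of_eq (congrArg ENNReal.ofReal ?_)
  simp only [f]
  rw [ucos_expG, lineCos_smul hG v _ _ hl, gdist_expG, gnorm_smul hG, abs_of_pos hl,
    geoPt_eq_expG', mul_comm l]
  ring

theorem measure_ball_lt_top [NeZero n] (hG : IsCH G) (x : EE n) :
    volume {v | gnorm G x v ≤ 1} < ⊤ := by
  by_contra h
  have h1 := integral_ball_one hG x
  rw [setIntegral_const, Measure.real, not_lt_top_iff.1 h] at h1
  simp only [ENNReal.toReal_top, zero_smul, zero_mul] at h1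
  exact omega_pos.ne h1

theorem lintegral_bdryF [NeZero n] (hG : IsCH G) {o : EE n} {R₀ : ℝ} {v : EE n → ℝ}
    (hv : Adm hG o R₀ v) {ψ : ℝ → ℝ} (hψ : Continuous ψ) (hψ0 : ∀ c, 0 ≤ c → 0 ≤ ψ c) :
    ∫⁻ z in ballB G, bdryF G ψ v z ∂phase G = ENNReal.ofReal (ballMoment n ψ * TV G v) := by
  have := isFiniteMeasureOnCompacts_rVol hG
  have hbm : 0 ≤ ballMoment n ψ :=
    setIntegral_nonneg measurableSet_closedBall fun w _ => hψ0 _ (le_max_left _ _)
  obtain ⟨hc, hs0, -⟩ := exists_kernel_support hG hv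
  have hint : Integrable (fun x => conorm G x (fderiv ℝ v x)) (rVol G) :=
    (continuous_conorm_fderiv hG hv.smooth).integrable_of_hasCompactSupport
      (HasCompactSupport.intro hc hs0)
  obtain ⟨B, hB⟩ := (isCompact_Icc (a := (0 : ℝ)) (b := 1)).exists_bound_of_continuousOn
    hψ.continuousOn
  rw [TV, ← integral_const_mul, ofReal_integral_eq_lintegral_ofReal (hint.const_mul _)
      (Eventually.of_forall fun x => mul_nonneg hbm (conorm_nonneg _ _)),
    lintegral_ball hG (measurable_bdryF hG hψ hv.smooth)]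
  refine lintegral_congr fun x => ?_
  by_cases hp : fderiv ℝ v x = 0
  · have h0 : conorm G x (0 : EE n →L[ℝ] ℝ) = 0 := by simp [conorm]
    simp [bdryF, hp, h0]
  · have hm : Measurable fun w => ψ (max 0 (lineCos G v (x, w))) :=
      hψ.measurable.comp (measurable_const.max
        ((measurable_lineCos hG hv.smooth).comp (measurable_const.prodMk measurable_id)))
    have hcomp : ∀ w, max 0 (lineCos G v (x, w)) ∈ Icc (0 : ℝ) 1 := fun w =>
      ⟨le_max_left _ _, max_le zero_le_one (lineCos_mem hG v _).2⟩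
    have hi : IntegrableOn (fun w => ψ (max 0 (lineCos G v (x, w)))) {w | gnorm G x w ≤ 1} :=
      Measure.integrableOn_of_bounded (measure_ball_lt_top hG x).ne hm.aestronglyMeasurable
        (Eventually.of_forall fun w => hB _ (hcomp w))
    have hmo := integral_ball_cos hG x hp hψ
    simp only [bdryF, ENNReal.ofReal_mul (conorm_nonneg _ _)]
    rw [lintegral_const_mul _ hm.ennreal_ofReal, ← ofReal_integral_eq_lintegral_ofReal hi
      (Eventually.of_forall fun w => hψ0 _ (le_max_left _ _)), ENNReal.ofReal_mul hbm, ← hmo,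
      ENNReal.ofReal_mul' (dens_pos hG x).le]
    simp only [lineCos]
    ring

theorem phase_ball_preimage [NeZero n] (hG : IsCH G) {U : Set (EE n)} (hU : MeasurableSet U) :
    phase G (ballB G ∩ Prod.fst ⁻¹' U) = ENNReal.ofReal (omega n) * rVol G U := by
  rw [inter_comm, ← Measure.restrict_apply (hU.preimage measurable_fst), ← lintegral_indicator_one
      (hU.preimage measurable_fst),
    lintegral_ball hG (measurable_one.indicator (hU.preimage measurable_fst)),
    ← lintegral_indicator_const hU]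
  refine lintegral_congr fun x => ?_
  by_cases hx : x ∈ U
  · simp only [Set.indicator, mem_preimage, hx, if_true, Pi.one_apply, setLIntegral_const, one_mul]
    rw [← integral_ball_one hG x, setIntegral_const, smul_eq_mul, mul_one, Measure.real,
      ENNReal.ofReal_mul ENNReal.toReal_nonneg,
      ENNReal.ofReal_toReal (measure_ball_lt_top hG x).ne, mul_comm]
  · simp [Set.indicator, hx]

end Vale.Agent.P219
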